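import Mathlib

/-!
# Graded families of submodules and finite generation

`H a` is the degree `a` part of a graded ring, all parts being submodules of one algebra `K`
(for instance `H D = {f | div f + D ≥ 0}` in a function field). `N a` is the degree `a` part of a
homogeneous ideal; `FGm O H N S` says that the part of the quotient ring with degrees in `S` is
generated by finitely many homogeneous elements.
-/

noncomputable section

namespace P277Z.Gr

variable {O K M : Type*} [CommRing O] [CommRing K] [Algebra O K] [AddCommMonoid M]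

/-- `g` is a monomial of degree `a` in the homogeneous elements of `T`. -/
inductive Mono (T : Set (M × K)) : M → K → Prop
  | one : Mono T 0 1
  | mul {a b : M} {f g : K} : (a, f) ∈ T → Mono T b g → Mono T (a + b) (f * g)

variable (O) in
/-- The degree `a` part of the algebra generated by `T`. -/
def gen (T : Set (M × K)) (a : M) : Submodule O K := Submodule.span O {g | Mono T a g}

/-- `H` is the family of the homogeneous parts of a graded ring. -/
structure Fam (H : M → Submodule O K) : Prop where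
  one : (1 : K) ∈ H 0
  mul : ∀ {a b : M} {f g : K}, f ∈ H a → g ∈ H b → f * g ∈ H (a + b)

/-- `N` is stable under multiplication by `H`. -/
def Idl (H N : M → Submodule O K) : Prop :=
  ∀ {a b : M} {f g : K}, f ∈ H a → g ∈ N b → f * g ∈ N (a + b)

/-- `N` is prime with respect to homogeneous elements of `H`. -/
def Prm (H N : M → Submodule O K) : Prop :=
  ∀ {a b : M} {f g : K}, f ∈ H a → g ∈ H b → f * g ∈ N (a + b) → f ∈ N a ∨ g ∈ N b

/-- The parts of `H` with degree in `S` are, modulo `N`, generated by finitely many homogeneous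
elements of `H`. -/
def FGm (H N : M → Submodule O K) (S : Set M) : Prop :=
  ∃ T : Set (M × K), T.Finite ∧ (∀ t ∈ T, t.2 ∈ H t.1) ∧ ∀ a ∈ S, H a ≤ gen O T a ⊔ N a

/-- The parts of `H` with degree in `S` are generated by finitely many homogeneous elements. -/
def FG (H : M → Submodule O K) (S : Set M) : Prop := FGm H (fun _ => ⊥) S

theorem fg_iff {H : M → Submodule O K} {S : Set M} :
    FG H S ↔ ∃ T : Set (M × K), T.Finite ∧ (∀ t ∈ T, t.2 ∈ H t.1) ∧ ∀ a ∈ S, H a ≤ gen O T a := by
  simp [FG, FGm]

theorem idl_bot (H : M → Submodule O K) : Idl H (fun _ => ⊥) := by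
  intro a b f g _ hg
  rw [Submodule.mem_bot] at hg ⊢
  rw [hg, mul_zero]

theorem prm_bot [NoZeroDivisors K] (H : M → Submodule O K) : Prm H (fun _ => ⊥) := by
  intro a b f g _ _ h
  simpa using h

namespace Mono

variable {T T' : Set (M × K)} {a b : M} {f g : K}

theorem cast (h : Mono T a f) (e : a = b) : Mono T b f := e ▸ h

theorem of_mem (h : (a, f) ∈ T) : Mono T a f := by
  simpa using Mono.mul h Mono.one

theorem mul' (h : Mono T a f) (h' : Mono T b g) : Mono T (a + b) (f * g) := by
  induction h with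
  | one => simpa using h'
  | mul ht _ ih => rw [add_assoc, mul_assoc]; exact Mono.mul ht ih

theorem pow (h : Mono T a f) (n : ℕ) : Mono T (n • a) (f ^ n) := by
  induction n with
  | zero => simpa using Mono.one
  | succ n ih => rw [succ_nsmul, pow_succ]; exact ih.mul' h

theorem prod {ι : Type*} (s : Finset ι) {d : ι → M} {u : ι → K} (h : ∀ i ∈ s, Mono T (d i) (u i)) :
    Mono T (∑ i ∈ s, d i) (∏ i ∈ s, u i) := by
  classical
  induction s using Finset.induction_on with
  | empty => simpa using Mono.one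
  | insert i s hi ih =>
    rw [Finset.sum_insert hi, Finset.prod_insert hi]
    exact (h i (Finset.mem_insert_self _ _)).mul' (ih fun j hj => h j (Finset.mem_insert_of_mem hj))

theorem trans (h : Mono T a f) (hT : ∀ t ∈ T, Mono T' t.1 t.2) : Mono T' a f := by
  induction h with
  | one => exact Mono.one
  | mul ht _ ih => exact (hT _ ht).mul' ih

theorem mono (h : Mono T a f) (hT : T ⊆ T') : Mono T' a f :=
  h.trans fun _ ht => of_mem (hT ht)

theorem mem_fam {H : M → Submodule O K} (hH : Fam H) (hT : ∀ t ∈ T, t.2 ∈ H t.1)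
    (h : Mono T a f) : f ∈ H a := by
  induction h with
  | one => exact hH.one
  | mul ht _ ih => exact hH.mul (hT _ ht) ih

theorem mem_submonoid {S : AddSubmonoid M} (hT : ∀ t ∈ T, t.1 ∈ S) (h : Mono T a f) : a ∈ S := by
  induction h with
  | one => exact S.zero_mem
  | mul ht _ ih => exact S.add_mem (hT _ ht) ih

/-- Monomials in a finite family are products of powers. -/
theorem iff_range {ι : Type*} [Fintype ι] (d : ι → M) (u : ι → K) :
    Mono (Set.range fun i => (d i, u i)) a f ↔
      ∃ n : ι → ℕ, ∑ i, n i • d i = a ∧ ∏ i, u i ^ n i = f := by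
  classical
  constructor
  · intro h
    induction h with
    | one => exact ⟨0, by simp, by simp⟩
    | mul ht _ ih =>
      obtain ⟨i, hi⟩ := ht
      obtain ⟨n, h1, h2⟩ := ih
      obtain ⟨rfl, rfl⟩ := Prod.mk.inj hi
      refine ⟨Pi.single i 1 + n, ?_, ?_⟩
      · simp only [Pi.add_apply, add_nsmul, Finset.sum_add_distrib, h1]
        congr 1
        rw [Finset.sum_eq_single i] <;> simp +contextual
      · simp only [Pi.add_apply, pow_add, Finset.prod_mul_distrib, h2]
        congr 1
        rw [Finset.prod_eq_single i] <;> simp +contextual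
  · rintro ⟨n, rfl, rfl⟩
    exact Mono.prod _ fun i _ => Mono.pow (of_mem (Set.mem_range_self (f := fun i => (d i, u i)) i)) _

end Mono

variable {T T' : Set (M × K)} {a b : M} {f g : K}

theorem mem_gen (h : Mono T a f) : f ∈ gen O T a := Submodule.subset_span h

theorem gen_mono (h : T ⊆ T') (a : M) : gen O T a ≤ gen O T' a :=
  Submodule.span_mono fun _ hg => Mono.mono hg h

theorem gen_le_iff {U : Submodule O K} : gen O T a ≤ U ↔ ∀ g, Mono T a g → g ∈ U :=
  Submodule.span_le

theorem mul_mem_of_span {s : Set K} {U : Submodule O K} {f g : K} (hf : f ∈ Submodule.span O s)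
    (h : ∀ x ∈ s, x * g ∈ U) : f * g ∈ U := by
  induction hf using Submodule.span_induction with
  | mem x hx => exact h x hx
  | zero => simp
  | add x y _ _ hx hy => rw [add_mul]; exact U.add_mem hx hy
  | smul c x _ hx => rw [smul_mul_assoc]; exact U.smul_mem c hx

theorem fam_gen (T : Set (M × K)) : Fam (gen O T) where
  one := mem_gen Mono.one
  mul := by
    intro a b f g hf hg
    refine mul_mem_of_span hf fun x hx => ?_
    rw [mul_comm]
    refine mul_mem_of_span hg fun y hy => ?_
    rw [mul_comm]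
    exact mem_gen (Mono.mul' hx hy)

theorem gen_le {H : M → Submodule O K} (hH : Fam H) (hT : ∀ t ∈ T, t.2 ∈ H t.1) (a : M) :
    gen O T a ≤ H a :=
  gen_le_iff.2 fun _ hg => hg.mem_fam hH hT

theorem Fam.pow {H : M → Submodule O K} (hH : Fam H) (h : f ∈ H a) (n : ℕ) :
    f ^ n ∈ H (n • a) := by
  induction n with
  | zero => simpa using hH.one
  | succ n ih => rw [succ_nsmul, pow_succ]; exact hH.mul ih h

theorem Fam.prod {H : M → Submodule O K} (hH : Fam H) {ι : Type*} (s : Finset ι) {d : ι → M}
    {u : ι → K} (h : ∀ i ∈ s, u i ∈ H (d i)) : ∏ i ∈ s, u i ∈ H (∑ i ∈ s, d i) := by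
  classical
  induction s using Finset.induction_on with
  | empty => simpa using hH.one
  | insert i s hi ih =>
    rw [Finset.sum_insert hi, Finset.prod_insert hi]
    exact hH.mul (h i (Finset.mem_insert_self _ _))
      (ih fun j hj => h j (Finset.mem_insert_of_mem hj))

theorem Fam.comap {M' : Type*} [AddCommMonoid M'] {H : M → Submodule O K} (hH : Fam H)
    (φ : M' →+ M) : Fam fun a => H (φ a) where
  one := by simpa using hH.one
  mul := fun hf hg => by rw [map_add]; exact hH.mul hf hg

theorem Idl.comap {M' : Type*} [AddCommMonoid M'] {H N : M → Submodule O K} (h : Idl H N)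
    (φ : M' →+ M) : Idl (fun a => H (φ a)) fun a => N (φ a) :=
  fun hf hg => by
    show _ ∈ N (φ _)
    rw [map_add]; exact h hf hg

theorem Prm.comap {M' : Type*} [AddCommMonoid M'] {H N : M → Submodule O K} (h : Prm H N)
    (φ : M' →+ M) : Prm (fun a => H (φ a)) fun a => N (φ a) :=
  fun hf hg hfg => h hf hg (by rw [← map_add]; exact hfg)

/-- `gen ⊔ N` is again a graded family. -/
theorem fam_sup {H N : M → Submodule O K} (hH : Fam H) (hN : Idl H N) (hle : ∀ a, N a ≤ H a)
    (hT : ∀ t ∈ T, t.2 ∈ H t.1) : Fam fun a => gen O T a ⊔ N a where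
  one := Submodule.mem_sup_left (mem_gen Mono.one)
  mul := by
    intro a b f g hf hg
    obtain ⟨f₁, hf₁, f₂, hf₂, rfl⟩ := Submodule.mem_sup.1 hf
    obtain ⟨g₁, hg₁, g₂, hg₂, rfl⟩ := Submodule.mem_sup.1 hg
    have e : (f₁ + f₂) * (g₁ + g₂) = f₁ * g₁ + ((f₁ + f₂) * g₂ + g₁ * f₂) := by ring
    rw [e]
    refine Submodule.add_mem_sup ((fam_gen T).mul hf₁ hg₁) ((N _).add_mem ?_ ?_)
    · exact hN ((H a).add_mem (gen_le hH hT a hf₁) (hle a hf₂)) hg₂
    · rw [add_comm a b]; exact hN (gen_le hH hT b hg₁) hf₂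

variable {H N : M → Submodule O K} {S S' : Set M}

theorem FGm.mono (h : FGm H N S) (hS : S' ⊆ S) : FGm H N S' := by
  obtain ⟨T, h1, h2, h3⟩ := h
  exact ⟨T, h1, h2, fun a ha => h3 a (hS ha)⟩

theorem FGm.mono_idl {N' : M → Submodule O K} (h : FGm H N S) (hN : ∀ a ∈ S, N a ≤ N' a) :
    FGm H N' S := by
  obtain ⟨T, h1, h2, h3⟩ := h
  exact ⟨T, h1, h2, fun a ha => (h3 a ha).trans (sup_le_sup_left (hN a ha) _)⟩

theorem FG.mono (h : FG H S) (hS : S' ⊆ S) : FG H S' := FGm.mono h hS

theorem FG.fgm (h : FG H S) (N : M → Submodule O K) : FGm H N S :=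
  FGm.mono_idl h fun _ _ => bot_le

/-- Degrees where the quotient vanishes cost nothing. -/
theorem fgm_of_le (h : ∀ a ∈ S, H a ≤ N a) : FGm H N S :=
  ⟨∅, Set.finite_empty, by simp, fun a ha => (h a ha).trans le_sup_right⟩

theorem FGm.union (h : FGm H N S) (h' : FGm H N S') : FGm H N (S ∪ S') := by
  obtain ⟨T, h1, h2, h3⟩ := h
  obtain ⟨T', h1', h2', h3'⟩ := h'
  refine ⟨T ∪ T', h1.union h1', fun t ht => ht.elim (h2 t) (h2' t), fun a ha => ?_⟩
  rcases ha with ha | ha
  · exact (h3 a ha).trans (sup_le_sup_right (gen_mono Set.subset_union_left a) _)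
  · exact (h3' a ha).trans (sup_le_sup_right (gen_mono Set.subset_union_right a) _)

/-- A finite cover of the degrees. -/
theorem fgm_of_cover {ι : Type*} [Finite ι] (C : ι → Set M) (h : ∀ i, FGm H N (C i))
    (hS : ∀ a ∈ S, H a ≤ N a ∨ ∃ i, a ∈ C i) : FGm H N S := by
  choose T h1 h2 h3 using h
  refine ⟨⋃ i, T i, Set.finite_iUnion h1, fun t ht => ?_, fun a ha => ?_⟩
  · obtain ⟨i, hi⟩ := Set.mem_iUnion.1 ht
    exact h2 i t hi
  · rcases hS a ha with h | ⟨i, hi⟩
    · exact h.trans le_sup_right
    · exact (h3 i a hi).trans (sup_le_sup_right (gen_mono (Set.subset_iUnion T i) a) _)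

/-- Finitely many degrees with finite parts. -/
theorem fgm_of_finite (hS : S.Finite) (h : ∀ a ∈ S, (H a).FG) : FGm H N S := by
  have : Finite S := hS
  refine fgm_of_cover (fun a : S => {a.1}) (fun a => ?_) fun a ha => Or.inr ⟨⟨a, ha⟩, rfl⟩
  obtain ⟨s, hs⟩ := h a a.2
  refine ⟨(fun g => (a.1, g)) '' s, s.finite_toSet.image _, ?_, ?_⟩
  · rintro _ ⟨g, hg, rfl⟩
    show g ∈ H a
    rw [← hs]; exact Submodule.subset_span hg
  · rintro _ rfl
    rw [← hs]
    exact (Submodule.span_le.2 fun g hg => mem_gen (Mono.of_mem (Set.mem_image_of_mem _ hg))).trans le_sup_left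

/-- Generators as a family indexed by `Fin k`. -/
theorem FGm.exists_fin (h : FGm H N S) : ∃ (k : ℕ) (d : Fin k → M) (u : Fin k → K),
    (∀ i, u i ∈ H (d i)) ∧
      ∀ a ∈ S, H a ≤ gen O (Set.range fun i => (d i, u i)) a ⊔ N a := by
  obtain ⟨T, h1, h2, h3⟩ := h
  obtain ⟨k, e, he⟩ := h1.fin_param
  refine ⟨k, fun i => (e i).1, fun i => (e i).2, fun i => h2 _ (he.2 ▸ ⟨i, rfl⟩), ?_⟩
  have : (Set.range fun i => ((e i).1, (e i).2)) = T := he.2
  rw [this]; exact h3

end P277Z.Gr
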