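import Vale.Agent.P277Z.Gr.Ver

/-!
# Transfer of finite generation, and finite generation from restrictions
-/

noncomputable section

namespace P277Z.Gr

variable {O K K' M : Type*} [CommRing O] [CommRing K] [Algebra O K] [CommRing K'] [Algebra O K']
  [AddCommMonoid M]

/-- The maps `ρ a` induce a graded isomorphism from `H / N` to `H' / N'` in the degrees of `S`. -/
structure Tr (H N : M → Submodule O K) (H' N' : M → Submodule O K') (S : AddSubmonoid M)
    (ρ : M → K → K') : Prop where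
  mem : ∀ a ∈ S, ∀ f ∈ H a, ρ a f ∈ H' a
  add : ∀ a ∈ S, ∀ f ∈ H a, ∀ g ∈ H a, ρ a (f + g) = ρ a f + ρ a g
  smul : ∀ a ∈ S, ∀ c : O, ∀ f ∈ H a, ρ a (c • f) = c • ρ a f
  mul : ∀ a ∈ S, ∀ b ∈ S, ∀ f ∈ H a, ∀ g ∈ H b, ρ (a + b) (f * g) = ρ a f * ρ b g
  one : ρ 0 1 = 1
  ker : ∀ a ∈ S, ∀ f ∈ H a, (ρ a f ∈ N' a ↔ f ∈ N a)
  surj : ∀ a ∈ S, ∀ g ∈ H' a, ∃ f ∈ H a, g - ρ a f ∈ N' a

namespace Tr

variable {H N : M → Submodule O K} {H' N' : M → Submodule O K'} {S : AddSubmonoid M}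
  {ρ : M → K → K'}

theorem zero (h : Tr H N H' N' S ρ) {a : M} (ha : a ∈ S) : ρ a 0 = 0 := by
  have := h.smul a ha 0 0 (zero_mem _)
  simpa using this

theorem sub (h : Tr H N H' N' S ρ) {a : M} (ha : a ∈ S) {f g : K} (hf : f ∈ H a) (hg : g ∈ H a) :
    ρ a (f - g) = ρ a f - ρ a g := by
  have := h.add a ha (f - g) (sub_mem hf hg) g hg
  rw [sub_add_cancel] at this
  rw [this]; ring

theorem gen_map (h : Tr H N H' N' S ρ) (hH : Fam H) {T : Set (M × K)}
    (hT : ∀ t ∈ T, t.1 ∈ S ∧ t.2 ∈ H t.1) {a : M} (ha : a ∈ S) {f : K} (hf : f ∈ gen O T a) :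
    ρ a f ∈ gen O ((fun t => (t.1, ρ t.1 t.2)) '' T) a := by
  have hle := gen_le hH (fun t ht => (hT t ht).2) a
  induction hf using Submodule.span_induction with
  | mem x hx =>
    refine mem_gen ?_
    have hx' : Mono T a x := hx
    clear hx hle ha
    induction hx' with
    | one => rw [h.one]; exact Mono.one
    | mul ht hm ih =>
      rw [h.mul _ (hT _ ht).1 _ (hm.mem_submonoid fun t ht => (hT t ht).1) _ (hT _ ht).2 _
        (hm.mem_fam hH fun t ht => (hT t ht).2)]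
      exact Mono.mul ⟨_, ht, rfl⟩ ih
  | zero => rw [h.zero ha]; exact zero_mem _
  | add x y hx' hy' hx hy => rw [h.add a ha x (hle hx') y (hle hy')]; exact add_mem hx hy
  | smul c x hx' hx => rw [h.smul a ha c x (hle hx')]; exact Submodule.smul_mem _ _ hx

/-- From the source to the target. -/
theorem fgm_right [IsCancelAdd M] (h : Tr H N H' N' S ρ) (hH : Fam H) (hle : ∀ a, N a ≤ H a)
    (hS : S.FG) (hf : FGm H N (S : Set M)) : FGm H' N' (S : Set M) := by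
  obtain ⟨T, h1, h2, h3⟩ := hf.strict hH hS
  refine ⟨(fun t => (t.1, ρ t.1 t.2)) '' T, h1.image _, ?_, fun a ha g hg => ?_⟩
  · rintro _ ⟨t, ht, rfl⟩
    exact h.mem _ (h2 t ht).1 _ (h2 t ht).2
  · obtain ⟨f, hf, hgf⟩ := h.surj a ha g hg
    obtain ⟨x, hx, y, hy, rfl⟩ := Submodule.mem_sup.1 (h3 a ha hf)
    have hxH := gen_le hH (fun t ht => (h2 t ht).2) a hx
    rw [h.add a ha x hxH y (hle a hy)] at hgf
    have e : g = ρ a x + (g - (ρ a x + ρ a y) + ρ a y) := by ring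
    rw [e]
    exact Submodule.add_mem_sup (h.gen_map hH h2 ha hx)
      (add_mem hgf ((h.ker a ha y (hle a hy)).2 hy))

/-- From the target to the source. -/
theorem fgm_left [IsCancelAdd M] (h : Tr H N H' N' S ρ) (hH : Fam H) (hH' : Fam H')
    (hN' : Idl H' N') (hS : S.FG) (hf : FGm H' N' (S : Set M)) : FGm H N (S : Set M) := by
  obtain ⟨T', h1, h2, h3⟩ := hf.strict hH' hS
  have hch : ∀ t : T', ∃ f ∈ H t.1.1, t.1.2 - ρ t.1.1 f ∈ N' t.1.1 := fun t =>
    h.surj _ (h2 t.1 t.2).1 _ (h2 t.1 t.2).2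
  choose σ hσ1 hσ2 using hch
  have : Finite T' := h1
  set T : Set (M × K) := Set.range fun t : T' => (t.1.1, σ t) with hT
  have hTH : ∀ t ∈ T, t.1 ∈ S ∧ t.2 ∈ H t.1 := by
    rintro _ ⟨t, rfl⟩
    exact ⟨(h2 t.1 t.2).1, hσ1 t⟩
  have hTH' : ∀ t ∈ T, t.2 ∈ H t.1 := fun t ht => (hTH t ht).2
  have hmono : ∀ a g, Mono T' a g → ∃ f, Mono T a f ∧ g - ρ a f ∈ N' a := by
    intro a g hg
    induction hg with
    | one => exact ⟨1, Mono.one, by rw [h.one]; simp⟩
    | @mul a b f g ht hm ih =>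
      obtain ⟨f', hf', hgf⟩ := ih
      have ha : a ∈ S := (h2 _ ht).1
      have hb : b ∈ S := hm.mem_submonoid fun t ht => (h2 t ht).1
      have hf'H : f' ∈ H b := hf'.mem_fam hH hTH'
      refine ⟨σ ⟨_, ht⟩ * f', Mono.mul ⟨⟨_, ht⟩, rfl⟩ hf', ?_⟩
      rw [h.mul a ha b hb _ (hσ1 ⟨_, ht⟩) _ hf'H]
      have e : f * g - ρ a (σ ⟨_, ht⟩) * ρ b f' =
          f * (g - ρ b f') + ρ b f' * (f - ρ a (σ ⟨_, ht⟩)) := by ring
      rw [e]
      refine add_mem (hN' (h2 _ ht).2 hgf) ?_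
      rw [add_comm a b]
      exact hN' (h.mem b hb _ hf'H) (hσ2 ⟨_, ht⟩)
  have hgen : ∀ a ∈ S, ∀ g ∈ gen O T' a, ∃ f ∈ gen O T a, g - ρ a f ∈ N' a := by
    intro a ha g hg
    have hle := gen_le hH hTH' a
    induction hg using Submodule.span_induction with
    | mem x hx =>
      obtain ⟨f, hf, hgf⟩ := hmono a x hx
      exact ⟨f, mem_gen hf, hgf⟩
    | zero => exact ⟨0, zero_mem _, by rw [h.zero ha]; simp⟩
    | add x y _ _ hx hy =>
      obtain ⟨f₁, hf₁, e₁⟩ := hx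
      obtain ⟨f₂, hf₂, e₂⟩ := hy
      refine ⟨f₁ + f₂, add_mem hf₁ hf₂, ?_⟩
      rw [h.add a ha _ (hle hf₁) _ (hle hf₂)]
      have e : x + y - (ρ a f₁ + ρ a f₂) = (x - ρ a f₁) + (y - ρ a f₂) := by ring
      rw [e]; exact add_mem e₁ e₂
    | smul c x _ hx =>
      obtain ⟨f₁, hf₁, e₁⟩ := hx
      refine ⟨c • f₁, Submodule.smul_mem _ _ hf₁, ?_⟩
      rw [h.smul a ha c _ (hle hf₁), ← smul_sub]
      exact Submodule.smul_mem _ _ e₁
  refine ⟨T, Set.finite_range _, hTH', fun a ha f hf => ?_⟩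
  obtain ⟨x, hx, y, hy, hxy⟩ := Submodule.mem_sup.1 (h3 a ha (h.mem a ha f hf))
  obtain ⟨f', hf', e'⟩ := hgen a ha x hx
  have hf'H := gen_le hH hTH' a hf'
  have hN : f - f' ∈ N a := by
    rw [← h.ker a ha _ (sub_mem hf hf'H), h.sub ha hf hf'H, ← hxy]
    have e : x + y - ρ a f' = (x - ρ a f') + y := by ring
    rw [e]; exact add_mem e' hy
  have e : f = f' + (f - f') := by ring
  rw [e]
  exact Submodule.add_mem_sup hf' hN

end Tr

/-- The ideal generated by `σ` of degree `e`. -/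
def mulIdl (H : M → Submodule O K) (e : M) (σ : K) (a : M) : Submodule O K :=
  Submodule.span O {x | ∃ b, ∃ g ∈ H b, b + e = a ∧ σ * g = x}

theorem idl_mulIdl {H : M → Submodule O K} (hH : Fam H) (e : M) (σ : K) :
    Idl H (mulIdl H e σ) := by
  intro a b f g hf hg
  rw [mul_comm]
  refine mul_mem_of_span hg ?_
  rintro _ ⟨c, w, hw, rfl, rfl⟩
  exact Submodule.subset_span ⟨a + c, f * w, hH.mul hf hw, add_assoc _ _ _, by ring⟩

theorem mulIdl_le {H : M → Submodule O K} (hH : Fam H) {e : M} {σ : K} (hσ : σ ∈ H e) (a : M) :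
    mulIdl H e σ a ≤ H a := by
  refine Submodule.span_le.2 ?_
  rintro _ ⟨c, w, hw, rfl, rfl⟩
  rw [add_comm]; exact hH.mul hσ hw

/-- Finite generation from the restrictions. `deg` is a degree function on `S`; in degrees of
large `deg` there is `j` with `a ∈ C j` such that the elements of `N j a` are multiples of `σ j`
by elements whose degree lies in `S` and has smaller `deg`. -/
theorem fg_of_res {H : M → Submodule O K} {J : Type*} [Finite J] {S : Set M} (C : J → Set M)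
    (N : J → M → Submodule O K) (e : J → M) (σ : J → K) (hσ : ∀ j, σ j ∈ H (e j))
    (deg : M → ℕ) (S₀ : Set M) (h0 : FG H S₀) (hC : ∀ j, FGm H (N j) (C j))
    (hstep : ∀ a ∈ S, a ∈ S₀ ∨ ∃ j, a ∈ C j ∧ ∃ b ∈ S, deg b < deg a ∧ e j + b = a ∧
      ∀ f ∈ N j a, ∃ g ∈ H b, σ j * g = f) : FG H S := by
  choose T h1 h2 h3 using hC
  obtain ⟨T₀, h01, h02, h03⟩ := fg_iff.1 h0
  set U : Set (M × K) := (T₀ ∪ Set.range fun j => (e j, σ j)) ∪ ⋃ j, T j with hU
  refine fg_iff.2 ⟨U, (h01.union (Set.finite_range _)).union (Set.finite_iUnion h1), ?_, ?_⟩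
  · rintro t ((ht | ⟨j, rfl⟩) | ht)
    · exact h02 t ht
    · exact hσ j
    · obtain ⟨j, hj⟩ := Set.mem_iUnion.1 ht
      exact h2 j t hj
  · intro a ha
    induction hn : deg a using Nat.strong_induction_on generalizing a with
    | _ n ih =>
      rcases hstep a ha with h | ⟨j, hj, b, hb, hlt, hab, hN⟩
      · exact (h03 a h).trans (gen_mono (fun t ht => Or.inl (Or.inl ht)) a)
      · refine (h3 j a hj).trans (sup_le (gen_mono (fun t ht => Or.inr ?_) a) fun f hf => ?_)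
        · exact Set.mem_iUnion.2 ⟨j, ht⟩
        · obtain ⟨g, hg, rfl⟩ := hN f hf
          rw [← hab]
          exact (fam_gen U).mul (mem_gen (Mono.of_mem (Or.inl (Or.inr ⟨j, rfl⟩))))
            (ih _ (hn ▸ hlt) b hb rfl hg)

end P277Z.Gr
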