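import Vale.Agent.P277Z.Gr.Defs

/-!
# Veronese subrings: change of the grading monoid, finite index
-/

noncomputable section

namespace P277Z.Gr

variable {O K M : Type*} [CommRing O] [CommRing K] [Algebra O K] [AddCommMonoid M]
variable {H N : M → Submodule O K} {S : Set M}

theorem exists_fin_closure {M' : Type*} [AddCommMonoid M'] {S' : AddSubmonoid M'} (hS' : S'.FG) :
    ∃ (l : ℕ) (e : Fin l → M'), (∀ j, e j ∈ S') ∧
      ∀ a ∈ S', ∃ m : Fin l → ℕ, ∑ j, m j • e j = a := by
  obtain ⟨s, hs, hfin⟩ := (AddSubmonoid.fg_iff S').1 hS'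
  obtain ⟨l, e, -, he⟩ := hfin.fin_param
  refine ⟨l, e, fun j => ?_, fun a ha => ?_⟩
  · rw [← hs, ← he]; exact AddSubmonoid.subset_closure ⟨j, rfl⟩
  · rw [← hs, ← he] at ha
    induction ha using AddSubmonoid.closure_induction with
    | mem x hx =>
      obtain ⟨j, rfl⟩ := hx
      refine ⟨Pi.single j 1, ?_⟩
      rw [Finset.sum_eq_single j] <;> simp +contextual
    | zero => exact ⟨0, by simp⟩
    | add x y _ _ hx hy =>
      obtain ⟨m, rfl⟩ := hx
      obtain ⟨m', rfl⟩ := hy
      exact ⟨m + m', by simp [add_nsmul, Finset.sum_add_distrib]⟩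

/-- Pull back of the grading along `φ`, generators with degrees in `S'`. -/
theorem FGm.comap_strict [IsCancelAdd M] {M' : Type*} [AddCommMonoid M'] (hH : Fam H)
    (h : FGm H N S) (φ : M' →+ M) (S' : AddSubmonoid M') (hS' : S'.FG)
    (hφ : ∀ a ∈ S', φ a ∈ S) :
    ∃ T' : Set (M' × K), T'.Finite ∧ (∀ t ∈ T', t.1 ∈ S' ∧ t.2 ∈ H (φ t.1)) ∧
      ∀ a ∈ S', H (φ a) ≤ gen O T' a ⊔ N (φ a) := by
  classical
  obtain ⟨k, d, u, hu, h3⟩ := h.exists_fin
  obtain ⟨l, e, he, hgen⟩ := exists_fin_closure hS'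
  let F : (Fin k ⊕ Fin l → ℕ) →+ M :=
    { toFun := fun n => ∑ i, n (Sum.inl i) • d i
      map_zero' := by simp
      map_add' := fun n n' => by simp [add_nsmul, Finset.sum_add_distrib] }
  let G : (Fin k ⊕ Fin l → ℕ) →+ M' :=
    { toFun := fun n => ∑ j, n (Sum.inr j) • e j
      map_zero' := by simp
      map_add' := fun n n' => by simp [add_nsmul, Finset.sum_add_distrib] }
  obtain ⟨s, hs, hfin⟩ := (AddSubmonoid.fg_iff _).1 (AddSubmonoid.fg_eqLocusM F (φ.comp G))
  refine ⟨(fun n => (G n, ∏ i, u i ^ n (Sum.inl i))) '' s, hfin.image _, ?_, ?_⟩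
  · rintro _ ⟨n, hn, rfl⟩
    have hn' : n ∈ F.eqLocusM (φ.comp G) := hs ▸ AddSubmonoid.subset_closure hn
    have hn'' : F n = φ (G n) := hn'
    have hG : ∑ j, n (Sum.inr j) • e j ∈ S' := S'.sum_mem fun j _ => S'.nsmul_mem (he j) _
    refine ⟨hG, ?_⟩
    show ∏ i, u i ^ n (Sum.inl i) ∈ H (φ (G n))
    rw [← hn'']
    show _ ∈ H (∑ i, n (Sum.inl i) • d i)
    exact hH.prod _ fun i _ => hH.pow (hu i) _
  · intro a ha
    refine (h3 _ (hφ a ha)).trans (sup_le_sup_right (gen_le_iff.2 fun g hg => ?_) _)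
    obtain ⟨n, hn, rfl⟩ := (Mono.iff_range d u).1 hg
    obtain ⟨m, rfl⟩ := hgen a ha
    have hmem : Sum.elim n m ∈ AddSubmonoid.closure s := by
      rw [hs]; exact hn
    have key : ∀ x ∈ AddSubmonoid.closure s,
        Mono ((fun n => (G n, ∏ i, u i ^ n (Sum.inl i))) '' s) (G x)
          (∏ i, u i ^ x (Sum.inl i)) := by
      intro x hx
      induction hx using AddSubmonoid.closure_induction with
      | mem x hx => exact Mono.of_mem ⟨x, hx, rfl⟩
      | zero => simpa using Mono.one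
      | add x y _ _ hx hy =>
        rw [map_add]
        simp only [Pi.add_apply, pow_add, Finset.prod_mul_distrib]
        exact hx.mul' hy
    exact mem_gen (key _ hmem)

theorem FGm.comap [IsCancelAdd M] {M' : Type*} [AddCommMonoid M'] (hH : Fam H)
    (h : FGm H N S) (φ : M' →+ M) (S' : AddSubmonoid M') (hS' : S'.FG)
    (hφ : ∀ a ∈ S', φ a ∈ S) : FGm (fun a => H (φ a)) (fun a => N (φ a)) (S' : Set M') := by
  obtain ⟨T', h1, h2, h3⟩ := h.comap_strict hH φ S' hS' hφ
  exact ⟨T', h1, fun t ht => (h2 t ht).2, h3⟩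

/-- On a finitely generated monoid of degrees the generators can be taken with degrees in it. -/
theorem FGm.strict [IsCancelAdd M] (hH : Fam H) {S : AddSubmonoid M} (hS : S.FG)
    (h : FGm H N (S : Set M)) :
    ∃ T : Set (M × K), T.Finite ∧ (∀ t ∈ T, t.1 ∈ S ∧ t.2 ∈ H t.1) ∧
      ∀ a ∈ S, H a ≤ gen O T a ⊔ N a :=
  h.comap_strict hH (AddMonoidHom.id M) S hS fun _ ha => ha

theorem Mono.map {M' : Type*} [AddCommMonoid M'] (φ : M' →+ M) {T : Set (M' × K)} {a : M'} {g : K}
    (h : Mono T a g) : Mono ((fun t => (φ t.1, t.2)) '' T) (φ a) g := by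
  induction h with
  | one => simpa using Mono.one
  | mul ht _ ih => rw [map_add]; exact Mono.mul ⟨_, ht, rfl⟩ ih

/-- Push forward of the grading along `φ`. -/
theorem FGm.map {M' : Type*} [AddCommMonoid M'] (φ : M' →+ M) {S' : Set M'}
    (h : FGm (fun a => H (φ a)) (fun a => N (φ a)) S') : FGm H N (φ '' S') := by
  obtain ⟨T, h1, h2, h3⟩ := h
  refine ⟨(fun t => (φ t.1, t.2)) '' T, h1.image _, ?_, ?_⟩
  · rintro _ ⟨t, ht, rfl⟩
    exact h2 t ht
  · rintro _ ⟨a, ha, rfl⟩
    exact (h3 a ha).trans (sup_le_sup_right (gen_le_iff.2 fun g hg => mem_gen (hg.map φ)) _)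

open MvPolynomial in
/-- Hilbert's basis theorem for homogeneous elements. -/
theorem noeth [IsNoetherianRing O] (hH : Fam H) (hN : Idl H N) {T : Set (M × K)} (hT : T.Finite)
    (hTH : ∀ t ∈ T, t.2 ∈ H t.1) {ι : Type*} (c : ι → M) (z : ι → K)
    (hz : ∀ i, z i ∈ gen O T (c i) ⊔ N (c i)) :
    ∃ s : Set ι, s.Finite ∧ ∀ i, z i ∈ Submodule.span O
      {x | ∃ j ∈ s, ∃ b g, Mono T b g ∧ b + c j = c i ∧ g * z j = x} ⊔ N (c i) := by
  classical
  obtain ⟨k, e, -, he⟩ := hT.fin_param
  set d : Fin k → M := fun i => (e i).1 with hd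
  set u : Fin k → K := fun i => (e i).2 with hu
  have hT' : T = Set.range fun i => (d i, u i) := he.symm
  have hw : ∀ n : Fin k →₀ ℕ, Finsupp.weight d n = ∑ i, n i • d i := fun n => by
    rw [Finsupp.weight_apply, Finsupp.sum_fintype]; simp
  have hmon : ∀ (n : Fin k →₀ ℕ) (r : O), aeval u (monomial n r) = r • ∏ i, u i ^ n i := by
    intro n r
    rw [aeval_monomial, Finsupp.prod_fintype _ _ (by simp), Algebra.smul_def]
  have hlift : ∀ a, ∀ g ∈ gen O T a, ∃ p : MvPolynomial (Fin k) O,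
      IsWeightedHomogeneous d p a ∧ aeval u p = g := by
    intro a g hg
    induction hg using Submodule.span_induction with
    | mem x hx =>
      rw [hT'] at hx
      obtain ⟨n, hn, rfl⟩ := (Mono.iff_range d u).1 hx
      refine ⟨monomial (Finsupp.equivFunOnFinite.symm n) 1,
        isWeightedHomogeneous_monomial _ _ _ ?_, ?_⟩
      · rw [hw]; simpa using hn
      · rw [hmon]; simp
    | zero => exact ⟨0, isWeightedHomogeneous_zero _ _ _, map_zero _⟩
    | add x y _ _ hx hy =>
      obtain ⟨p, hp, rfl⟩ := hx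
      obtain ⟨q, hq, rfl⟩ := hy
      exact ⟨p + q, hp.add hq, map_add _ _ _⟩
    | smul r x _ hx =>
      obtain ⟨p, hp, rfl⟩ := hx
      refine ⟨r • p, ?_, map_smul _ _ _⟩
      exact (weightedHomogeneousSubmodule O d a).smul_mem r hp
  have hp : ∀ i, ∃ p : MvPolynomial (Fin k) O,
      IsWeightedHomogeneous d p (c i) ∧ z i - aeval u p ∈ N (c i) := by
    intro i
    obtain ⟨x, hx, y, hy, hxy⟩ := Submodule.mem_sup.1 (hz i)
    obtain ⟨p, hp, rfl⟩ := hlift _ x hx
    exact ⟨p, hp, by rw [← hxy]; simpa using hy⟩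
  choose p hp1 hp2 using hp
  have hfg : (Ideal.span (Set.range p)).FG := IsNoetherian.noetherian _
  obtain ⟨t, ht, htspan⟩ := (Submodule.fg_span_iff_fg_span_finset_subset _).1 hfg
  have hch : ∀ q : t, ∃ j, p j = q := fun q => ht q.2
  choose σ hσ using hch
  refine ⟨Set.range σ, Set.finite_range σ, fun i => ?_⟩
  set U : M → Submodule O K := fun a => Submodule.span O
    {x | ∃ j ∈ Set.range σ, ∃ b g, Mono T b g ∧ b + c j = a ∧ g * z j = x} ⊔ N a with hU
  have key : ∀ x ∈ Submodule.span (MvPolynomial (Fin k) O) (t : Set (MvPolynomial (Fin k) O)),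
      ∀ q : MvPolynomial (Fin k) O, ∀ a,
        aeval u (weightedHomogeneousComponent d a (q * x)) ∈ U a := by
    intro x hx
    induction hx using Submodule.span_induction with
    | mem x hx =>
      intro q a
      have hx' : x = p (σ ⟨x, hx⟩) := (hσ ⟨x, hx⟩).symm
      set j := σ ⟨x, hx⟩ with hj
      rw [hx']
      induction q using MvPolynomial.induction_on' with
      | monomial n r =>
        have hh : IsWeightedHomogeneous d (monomial n r * p j) (Finsupp.weight d n + c j) :=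
          (isWeightedHomogeneous_monomial _ _ _ rfl).mul (hp1 j)
        rw [weightedHomogeneousComponent_of_mem hh]
        split_ifs with hc
        · have hm : Mono T (Finsupp.weight d n) (∏ i, u i ^ n i) := by
            rw [hT', hw]; exact (Mono.iff_range d u).2 ⟨n, rfl, rfl⟩
          rw [map_mul, hmon, smul_mul_assoc]
          refine (U a).smul_mem r ?_
          have e1 : (∏ i, u i ^ n i) * aeval u (p j) =
              (∏ i, u i ^ n i) * z j - (∏ i, u i ^ n i) * (z j - aeval u (p j)) := by ring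
          rw [e1]
          refine (U a).sub_mem (Submodule.mem_sup_left (Submodule.subset_span ?_))
            (Submodule.mem_sup_right ?_)
          · exact ⟨j, ⟨_, rfl⟩, _, _, hm, hc.symm, rfl⟩
          · rw [hc]; exact hN (hm.mem_fam hH hTH) (hp2 j)
        · simp
      | add q q' hq hq' =>
        rw [add_mul, map_add, map_add]; exact (U a).add_mem hq hq'
    | zero => intro q a; simp
    | add x y _ _ hx hy =>
      intro q a
      rw [mul_add, map_add, map_add]; exact (U a).add_mem (hx q a) (hy q a)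
    | smul r x _ hx =>
      intro q a
      rw [smul_eq_mul, ← mul_assoc]; exact hx _ a
  have hi : p i ∈ Submodule.span (MvPolynomial (Fin k) O) (t : Set (MvPolynomial (Fin k) O)) := by
    rw [← htspan]; exact Submodule.subset_span ⟨i, rfl⟩
  have h1 := key _ hi 1 (c i)
  rw [one_mul, weightedHomogeneousComponent_of_mem (hp1 i), if_pos rfl] at h1
  have e2 : z i = aeval u (p i) + (z i - aeval u (p i)) := by ring
  rw [e2]
  exact (U (c i)).add_mem h1 (Submodule.mem_sup_right (hp2 i))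

theorem Prm.pow (hH : Fam H) (hP : Prm H N) {a b : M} {f g : K} (hf : f ∈ H a) (hfN : f ∉ N a)
    (hg : g ∈ H b) (n : ℕ) (h : g * f ^ n ∈ N (b + n • a)) : g ∈ N b := by
  induction n with
  | zero => simpa using h
  | succ n ih =>
    rw [pow_succ, succ_nsmul, ← mul_assoc, ← add_assoc] at h
    exact ih ((hP (hH.mul hg (hH.pow hf n)) hf h).resolve_right hfN)

/-- A graded domain with a finitely generated Veronese subring of finite index is finitely
generated. -/
theorem FGm.of_index [IsNoetherianRing O] [IsCancelAdd M] (hH : Fam H) (hN : Idl H N)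
    (hP : Prm H N) (S : AddSubmonoid M) (hS : S.FG) {r : ℕ} (hr : 1 ≤ r)
    (h : FGm H N {a | ∃ b ∈ S, r • b = a}) : FGm H N (S : Set M) := by
  classical
  obtain ⟨T, hT, hTH, h3⟩ := h
  obtain ⟨l, e, he, hgen⟩ := exists_fin_closure hS
  obtain ⟨r, rfl⟩ : ∃ r', r = r' + 1 := ⟨r - 1, by omega⟩
  have key : ∀ c ∈ S, FGm H N {a | ∃ b ∈ S, c + (r + 1) • b = a} := by
    intro c hc
    by_cases hall : ∀ b ∈ S, H (c + (r + 1) • b) ≤ N (c + (r + 1) • b)
    · refine fgm_of_le ?_
      rintro _ ⟨b, hb, rfl⟩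
      exact hall b hb
    push Not at hall
    obtain ⟨b₀, hb₀, hf⟩ := hall
    obtain ⟨f, hf, hfN⟩ := SetLike.not_le_iff_exists.1 hf
    let ι := {x : M × K // x.1 ∈ S ∧ x.2 ∈ H (c + (r + 1) • x.1)}
    obtain ⟨s, hs, hz⟩ := noeth hH hN hT hTH
      (fun x : ι => c + (r + 1) • x.1.1 + r • (c + (r + 1) • b₀)) (fun x : ι => x.1.2 * f ^ r)
      (fun x => h3 _ ⟨c + x.1.1 + r • b₀, S.add_mem (S.add_mem hc x.2.1) (S.nsmul_mem hb₀ _), by
          simp only [smul_add, add_smul, one_smul, smul_smul, add_mul, one_mul]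
          abel⟩ (hH.mul x.2.2 (hH.pow hf r)))
    set T' : Set (M × K) := T ∪ (fun x : ι => (c + (r + 1) • x.1.1, x.1.2)) '' s with hT'
    have hT'H : ∀ t ∈ T', t.2 ∈ H t.1 := by
      rintro t (ht | ⟨x, -, rfl⟩)
      · exact hTH t ht
      · exact x.2.2
    refine ⟨T', hT.union (hs.image _), hT'H, ?_⟩
    rintro _ ⟨b, hb, rfl⟩ g hg
    obtain ⟨x, hx, y, hy, hxy⟩ := Submodule.mem_sup.1 (hz ⟨(b, g), hb, hg⟩)
    have hx' : ∃ g' ∈ gen O T' (c + (r + 1) • b), x = g' * f ^ r := by
      clear hxy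
      induction hx using Submodule.span_induction with
      | mem x hx =>
        obtain ⟨j, hj, b', w, hw, hb', rfl⟩ := hx
        refine ⟨w * j.1.2, mem_gen ?_, by ring⟩
        have h1 : Mono T' (b' + (c + (r + 1) • j.1.1)) (w * j.1.2) :=
          (hw.mono Set.subset_union_left).mul' (Mono.of_mem (Or.inr ⟨j, hj, rfl⟩))
        refine h1.cast ?_
        rw [← add_assoc b'] at hb'
        exact add_right_cancel hb'
      | zero => exact ⟨0, zero_mem _, by simp⟩
      | add x y _ _ hx hy =>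
        obtain ⟨g₁, h₁, rfl⟩ := hx
        obtain ⟨g₂, h₂, rfl⟩ := hy
        exact ⟨g₁ + g₂, add_mem h₁ h₂, by ring⟩
      | smul r' x _ hx =>
        obtain ⟨g₁, h₁, rfl⟩ := hx
        exact ⟨r' • g₁, Submodule.smul_mem _ _ h₁, by rw [smul_mul_assoc]⟩
    obtain ⟨g', hg', rfl⟩ := hx'
    have h4 : g - g' ∈ N (c + (r + 1) • b) := by
      refine hP.pow hH hf hfN (sub_mem hg (gen_le hH hT'H _ hg')) r ?_
      have e1 : (g - g') * f ^ r = y := by
        have : g' * f ^ r + y = g * f ^ r := hxy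
        rw [sub_mul, ← this]; ring
      rw [e1]; exact hy
    have e2 : g = g' + (g - g') := by ring
    rw [e2]
    exact Submodule.add_mem_sup hg' h4
  refine fgm_of_cover (fun c : Fin l → Fin (r + 1) =>
      {a | ∃ b ∈ S, (∑ j, (c j : ℕ) • e j) + (r + 1) • b = a})
    (fun c => key _ (S.sum_mem fun j _ => S.nsmul_mem (he j) _)) fun a ha => Or.inr ?_
  obtain ⟨m, rfl⟩ := hgen a ha
  refine ⟨fun j => ⟨m j % (r + 1), Nat.mod_lt _ (Nat.succ_pos r)⟩, ∑ j, (m j / (r + 1)) • e j,
    S.sum_mem fun j _ => S.nsmul_mem (he j) _, ?_⟩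
  rw [Finset.smul_sum, ← Finset.sum_add_distrib]
  refine Finset.sum_congr rfl fun j _ => ?_
  rw [smul_smul, ← add_smul, Nat.mod_add_div]

end P277Z.Gr
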