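import Mathlib

/-!
# P277Z, block Gr: finitely generated monoids in lattices
-/

namespace P277Z.Gr

open Finset

variable {ι J : Type} [Fintype J]

theorem mem_closure_range {M : Type} [AddCommMonoid M] {d : J → M} {a : M} :
    a ∈ AddSubmonoid.closure (Set.range d) ↔ ∃ n : J → ℕ, a = ∑ i, n i • d i := by
  rw [← Submodule.span_nat_eq_addSubmonoidClosure, Submodule.mem_toAddSubmonoid,
    Submodule.mem_span_range_iff_exists_fun]
  exact exists_congr fun _ => eq_comm

theorem mem_closure_image {M : Type} [AddCommMonoid M] {d : J → M} {I : Set J} {a : M} :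
    a ∈ AddSubmonoid.closure (d '' I) ↔
      ∃ n : J → ℕ, (∀ i, i ∉ I → n i = 0) ∧ a = ∑ i, n i • d i := by
  classical
  refine ⟨fun h => ?_, ?_⟩
  · induction h using AddSubmonoid.closure_induction with
    | mem x hx =>
      obtain ⟨i, hi, rfl⟩ := hx
      refine ⟨Pi.single i 1, fun j hj => Pi.single_eq_of_ne (fun e : j = i => hj (e ▸ hi)) _, ?_⟩
      rw [sum_eq_single i (fun l _ e => by simp [e]) (by simp), Pi.single_eq_same, one_smul]
    | zero => exact ⟨0, fun _ _ => rfl, by simp⟩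
    | add x y _ _ hx hy =>
      obtain ⟨n, h1, rfl⟩ := hx
      obtain ⟨n', h2, rfl⟩ := hy
      exact ⟨n + n', fun i hi => by simp [h1 i hi, h2 i hi], by simp [add_smul, sum_add_distrib]⟩
  · rintro ⟨n, h, rfl⟩
    refine sum_mem fun i _ => ?_
    by_cases e : i ∈ I
    · exact nsmul_mem (AddSubmonoid.subset_closure (Set.mem_image_of_mem d e)) _
    · simp [h i e]

theorem linIndepOn_iff {V : Type} [AddCommGroup V] [Module ℝ V] {d : J → V} {I : Set J} :
    LinearIndepOn ℝ d I ↔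
      ∀ c : J → ℝ, (∀ i, i ∉ I → c i = 0) → ∑ i, c i • d i = 0 → ∀ i, c i = 0 := by
  rw [linearIndepOn_iff]
  refine ⟨fun H c h1 h2 i => ?_, fun H c h1 h2 => Finsupp.ext (H c
    ((Finsupp.mem_supported' ℝ c).1 h1) ?_)⟩
  · refine DFunLike.congr_fun (H (Finsupp.equivFunOnFinite.symm c)
      ((Finsupp.mem_supported' ℝ _).2 h1) ?_) i
    rwa [Finsupp.linearCombination_apply, Finsupp.sum_fintype _ _ (by simp)]
  · rwa [Finsupp.linearCombination_apply, Finsupp.sum_fintype _ _ (by simp)] at h2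

/-- a uniform multiple for the saturation of the monoid generated by finitely many vectors -/
theorem exists_sat [Finite ι] (d : J → ι → ℤ) : ∃ k : ℕ, 1 ≤ k ∧ ∀ (a : ι → ℤ) (m : ℕ), 1 ≤ m →
    m • a ∈ AddSubmonoid.closure (Set.range d) → k • a ∈ AddSubmonoid.closure (Set.range d) := by
  classical
  have := Fintype.ofFinite ι
  set N := AddSubmonoid.closure (Set.range d)
  let B : ι → ℤ := fun j => ∑ i, |d i j|
  have hF : {r | r ∈ Set.Icc (-B) B ∧ ∃ m : ℕ, 1 ≤ m ∧ m • r ∈ N}.Finite :=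
    (Set.finite_Icc _ _).subset fun _ h => h.1
  choose! μ hμ using fun r (h : r ∈ hF.toFinset) => (hF.mem_toFinset.1 h).2
  refine ⟨∏ r ∈ hF.toFinset, μ r, one_le_prod' fun r hr => (hμ r hr).1, fun a m hm h => ?_⟩
  obtain ⟨n, hn⟩ := mem_closure_range.1 h
  let q := ∑ i, (n i / m) • d i
  have e : m • (a - q) = ∑ i, (n i % m) • d i := by
    rw [smul_sub, hn, smul_sum, ← sum_sub_distrib]
    refine sum_congr rfl fun i _ => ?_
    rw [smul_smul, sub_eq_iff_eq_add, ← add_smul, Nat.mod_add_div]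
  have hr : a - q ∈ hF.toFinset := hF.mem_toFinset.2 ⟨?_, m, hm, mem_closure_range.2 ⟨_, e⟩⟩
  · obtain ⟨c, hc⟩ := dvd_prod_of_mem μ hr
    rw [← sub_add_cancel a q, smul_add]
    refine add_mem ?_ (nsmul_mem (mem_closure_range.2 ⟨_, rfl⟩) _)
    rw [hc, mul_comm, mul_smul]
    exact nsmul_mem (hμ _ hr).2 _
  · have : ∀ j, |(a - q) j| ≤ B j := fun j => by
      have h1 : (m : ℤ) * |(a - q) j| ≤ m * B j := by
        have h2 := congrFun e j
        rw [Pi.smul_apply, nsmul_eq_mul, Finset.sum_apply] at h2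
        rw [← Int.abs_natCast m, ← abs_mul, h2, Int.abs_natCast, mul_sum]
        refine (abs_sum_le_sum_abs _ _).trans (sum_le_sum fun i _ => ?_)
        rw [Pi.smul_apply, nsmul_eq_mul, abs_mul, Int.abs_natCast]
        exact mul_le_mul_of_nonneg_right (by exact_mod_cast (Nat.mod_lt _ hm).le) (abs_nonneg _)
      exact le_of_mul_le_mul_left h1 (by exact_mod_cast hm)
    exact ⟨fun j => (abs_le.1 (this j)).1, fun j => (abs_le.1 (this j)).2⟩

/-- the same multiple for all subfamilies -/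
theorem exists_sat' [Finite ι] (d : J → ι → ℤ) : ∃ k : ℕ, 1 ≤ k ∧ ∀ (I : Set J) (a : ι → ℤ) (m : ℕ),
    1 ≤ m → m • a ∈ AddSubmonoid.closure (d '' I) → k • a ∈ AddSubmonoid.closure (d '' I) := by
  classical
  choose k h1 h2 using fun I : Set J => exists_sat fun i : I => d i
  refine ⟨∏ I, k I, one_le_prod' fun I _ => h1 I, fun I a m hm h => ?_⟩
  obtain ⟨c, hc⟩ := dvd_prod_of_mem k (mem_univ I)
  rw [Set.image_eq_range] at h ⊢
  rw [hc, mul_comm, mul_smul]
  exact nsmul_mem (h2 I a m hm h) _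

theorem exists_sat_fg [Finite ι] {N : AddSubmonoid (ι → ℤ)} (hN : N.FG) :
    ∃ k : ℕ, 1 ≤ k ∧ ∀ (a : ι → ℤ) (m : ℕ), 1 ≤ m → m • a ∈ N → k • a ∈ N := by
  obtain ⟨s, rfl⟩ := hN
  have := exists_sat fun i : s => (i : ι → ℤ)
  rwa [Subtype.range_coe_subtype] at this

theorem exists_pos_le_of_finite_aux (t : J → ℝ) (h : ∀ i, 0 < t i) : ∃ ε, 0 < ε ∧ ∀ i, ε ≤ t i := by
  cases isEmpty_or_nonempty J
  · exact ⟨1, one_pos, fun i => isEmptyElim i⟩
  · obtain ⟨i, hi⟩ := Finite.exists_min t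
    exact ⟨t i, h i, hi⟩

/-- rational approximation of finitely many reals by a linear map over the rationals -/
theorem exists_rat_lin (t : J → ℝ) {ε : ℝ} (hε : 0 < ε) :
    ∃ π : ℝ →ₗ[ℚ] ℚ, π 1 = 1 ∧ ∀ i, |(π (t i) : ℝ) - t i| < ε := by
  classical
  have h1 : LinearIndepOn ℚ id ({1} : Set ℝ) := LinearIndepOn.singleton one_ne_zero
  let b := Module.Basis.extend h1
  let o : h1.extend (Set.subset_univ _) := ⟨1, h1.subset_extend _ rfl⟩
  let C : ℝ := ∑ i, ∑ j ∈ (b.repr (t i)).support, |((b.repr (t i) j : ℚ) : ℝ)| + 1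
  have hC : 0 < C := by positivity
  choose u hu using fun j => exists_rat_near (b j) (div_pos hε hC)
  let u' := Function.update u o 1
  have hu' : ∀ j, |(u' j : ℝ) - b j| ≤ ε / C := fun j => by
    by_cases e : j = o
    · subst e
      simp only [u', b, o, Function.update_self, Module.Basis.extend_apply_self]
      simpa using (div_pos hε hC).le
    · rw [abs_sub_comm, show u' j = u j from Function.update_of_ne e _ _]
      exact (hu j).le
  refine ⟨b.constr ℚ u', ?_, fun i => ?_⟩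
  · rw [← b.constr_basis ℚ u' o |>.trans (Function.update_self ..)]
    simp only [b, o, Module.Basis.extend_apply_self]
  · have e : ((b.constr ℚ u' (t i) : ℚ) : ℝ) - t i =
        ∑ j ∈ (b.repr (t i)).support, ((b.repr (t i) j : ℚ) : ℝ) * (u' j - b j) := by
      conv_lhs => rw [b.constr_apply, ← b.linearCombination_repr (t i), b.repr_linearCombination,
        Finsupp.linearCombination_apply]
      simp only [Finsupp.sum, smul_eq_mul, Rat.cast_sum, Rat.cast_mul, Rat.smul_def, mul_sub,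
        sum_sub_distrib]
    rw [e]
    calc _ ≤ ∑ j ∈ (b.repr (t i)).support, |((b.repr (t i) j : ℚ) : ℝ)| * (ε / C) :=
          (abs_sum_le_sum_abs _ _).trans (sum_le_sum fun j _ => by
            rw [abs_mul]
            exact mul_le_mul_of_nonneg_left (hu' j) (abs_nonneg _))
      _ < C * (ε / C) := by
          rw [← sum_mul]
          refine mul_lt_mul_of_pos_right (lt_of_le_of_lt ?_ (lt_add_one _)) (div_pos hε hC)
          exact single_le_sum (f := fun i => ∑ j ∈ (b.repr (t i)).support,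
            |((b.repr (t i) j : ℚ) : ℝ)|) (fun _ _ => by positivity) (mem_univ i)
      _ = ε := mul_div_cancel₀ _ hC.ne'

/-- a lattice point of the real cone has a multiple in the monoid -/
theorem exists_nsmul_mem (d : J → ι → ℤ) {a : ι → ℤ} {t : J → ℝ} (ht : ∀ i, 0 ≤ t i)
    (h : ∀ j, (a j : ℝ) = ∑ i, t i * d i j) :
    ∃ m : ℕ, 1 ≤ m ∧ m • a ∈ AddSubmonoid.closure (d '' {i | t i ≠ 0}) := by
  classical
  obtain ⟨ε, hε, h1⟩ : ∃ ε : ℝ, 0 < ε ∧ ∀ i, t i ≠ 0 → ε ≤ t i := by
    obtain ⟨ε, hε, h1⟩ := exists_pos_le_of_finite_aux (fun i => if t i = 0 then 1 else t i)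
      fun i => by
        split_ifs with e
        · exact one_pos
        · exact (ht i).lt_of_ne' e
    exact ⟨ε, hε, fun i hi => by simpa [hi] using h1 i⟩
  obtain ⟨π, h2, h3⟩ := exists_rat_lin t hε
  have h4 : ∀ i, 0 ≤ π (t i) := fun i => by
    by_cases e : t i = 0
    · rw [e, map_zero]
    · have := h1 i e
      have h5 := (abs_lt.1 (h3 i)).1
      exact_mod_cast (show (0 : ℝ) ≤ π (t i) by linarith)
  have h6 : ∀ j, (a j : ℚ) = ∑ i, π (t i) * d i j := fun j => by
    have := congrArg π (h j)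
    rw [map_sum, show (a j : ℝ) = (a j : ℚ) • (1 : ℝ) by
      rw [Rat.smul_def, mul_one, Rat.cast_intCast], map_smul, h2, smul_eq_mul, mul_one] at this
    rw [this]
    refine sum_congr rfl fun i _ => ?_
    rw [show t i * (d i j : ℝ) = (d i j : ℚ) • t i by
      rw [Rat.smul_def, mul_comm, Rat.cast_intCast], map_smul, smul_eq_mul,
      mul_comm]
  let m := ∏ i, (π (t i)).den
  choose c hc using fun i => dvd_prod_of_mem (fun i => (π (t i)).den) (mem_univ i)
  refine ⟨m, one_le_prod' fun i _ => (π (t i)).den_pos, ?_⟩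
  have e : m • a = ∑ i, (c i * (π (t i)).num.toNat) • d i := funext fun j => by
    refine Int.cast_injective (α := ℚ) ?_
    rw [Pi.smul_apply, Finset.sum_apply, nsmul_eq_mul, Int.cast_mul, h6, mul_sum, Int.cast_sum]
    refine sum_congr rfl fun i _ => ?_
    have h7 : (((π (t i)).num.toNat : ℤ) : ℚ) = (π (t i)).den * π (t i) := by
      rw [Int.toNat_of_nonneg (Rat.num_nonneg.2 (h4 i)), Rat.den_mul_eq_num]
    rw [Pi.smul_apply, nsmul_eq_mul, Int.cast_mul, Nat.cast_mul, Int.cast_mul, h7,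
      show m = _ from hc i]
    push_cast
    ring
  rw [e]
  refine sum_mem fun i _ => ?_
  by_cases e' : t i = 0
  · simp [e']
  · exact nsmul_mem (AddSubmonoid.subset_closure
      (Set.mem_image_of_mem d (show i ∈ {i | t i ≠ 0} from e'))) _

/-! ### linear programs -/

/-- a basic solution with a smaller value -/
theorem exists_basic {V : Type} [AddCommGroup V] [Module ℝ V] (d : J → V) {w : J → ℝ}
    (hw : ∀ i, 0 ≤ w i) (t : J → ℝ) (ht : ∀ i, 0 ≤ t i) :
    ∃ t' : J → ℝ, (∀ i, 0 ≤ t' i) ∧ (∀ i, t i = 0 → t' i = 0) ∧ ∑ i, t' i • d i = ∑ i, t i • d i ∧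
      ∑ i, t' i * w i ≤ ∑ i, t i * w i ∧ LinearIndepOn ℝ d {i | t' i ≠ 0} := by
  classical
  induction hn : (univ.filter fun i => t i ≠ 0).card using Nat.strong_induction_on generalizing t with
  | _ N ih =>
  by_cases H : LinearIndepOn ℝ d {i | t i ≠ 0}
  · exact ⟨t, ht, fun _ h => h, rfl, le_rfl, H⟩
  obtain ⟨c, h1, h2, h3, h4⟩ : ∃ c : J → ℝ, (∀ i, t i = 0 → c i = 0) ∧ ∑ i, c i • d i = 0 ∧
      0 ≤ ∑ i, c i * w i ∧ ∃ i, 0 < c i := by
    rw [linIndepOn_iff] at H
    push Not at H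
    obtain ⟨c, h1, h2, i, hi⟩ := H
    have h4 : ∀ i, t i = 0 → c i = 0 := fun i hi => h1 i (by simpa using hi)
    have key : ∀ c : J → ℝ, (∀ i, t i = 0 → c i = 0) → ∑ i, c i • d i = 0 → c i ≠ 0 →
        0 ≤ ∑ i, c i * w i → ∃ c : J → ℝ, (∀ i, t i = 0 → c i = 0) ∧ ∑ i, c i • d i = 0 ∧
        0 ≤ ∑ i, c i * w i ∧ ∃ i, 0 < c i := fun c a1 a2 a3 a4 => by
      by_cases e : ∃ i, 0 < c i
      · exact ⟨c, a1, a2, a4, e⟩
      · push Not at e
        refine ⟨fun i => -c i, fun i hi => neg_eq_zero.2 (a1 i hi), by simp [a2],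
          sum_nonneg fun i _ => mul_nonneg (neg_nonneg.2 (e i)) (hw i), i,
          neg_pos.2 ((e i).lt_of_ne a3)⟩
    rcases le_total 0 (∑ i, c i * w i) with e | e
    · exact key c h4 h2 hi e
    · exact key (fun i => -c i) (fun i hi => neg_eq_zero.2 (h4 i hi)) (by simp [h2])
        (neg_ne_zero.2 hi) (by simpa using e)
  obtain ⟨i, hi, h5⟩ := exists_min_image (univ.filter fun i => 0 < c i) (fun i => t i / c i)
    (h4.imp fun i hi => by simpa using hi)
  have hi' : 0 < c i := by simpa using hi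
  have hs : 0 ≤ t i / c i := div_nonneg (ht i) hi'.le
  have h6 : ∀ j, t j = 0 → t j - t i / c i * c j = 0 := fun j hj => by simp [hj, h1 j hj]
  obtain ⟨t', a1, a2, a3, a4, a5⟩ := ih _ (hn ▸ card_lt_card ⟨fun j hj => by
      simp only [mem_filter, mem_univ, true_and] at hj ⊢
      exact fun e => hj (h6 j e), fun e => by
      have := @e i (by simpa using fun e => hi'.ne' (h1 i e))
      simp [hi'.ne'] at this⟩) (fun j => t j - t i / c i * c j) (fun j => by
      rcases le_or_gt (c j) 0 with e | e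
      · nlinarith [ht j]
      · exact sub_nonneg.2 ((le_div_iff₀ e).1 (h5 j (by simpa using e)))) rfl
  refine ⟨t', a1, fun j hj => a2 j (h6 j hj), a3.trans ?_, a4.trans ?_, a5⟩
  · simp only [sub_smul, mul_smul, sum_sub_distrib, ← smul_sum, h2, smul_zero, sub_zero]
  · simp only [sub_mul, mul_assoc, sum_sub_distrib, ← mul_sum]
    nlinarith

/-- integral solutions after a uniform multiple, with the same value -/
theorem exists_lp [Finite ι] (d : J → ι → ℤ) : ∃ k : ℕ, 1 ≤ k ∧ ∀ (w : J → ℝ), (∀ i, 0 ≤ w i) →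
    ∀ (a : ι → ℤ) (t : J → ℝ), (∀ i, 0 ≤ t i) → (∀ j, (a j : ℝ) = ∑ i, t i * d i j) →
    ∃ n : J → ℕ, (∀ i, t i = 0 → n i = 0) ∧ k • a = ∑ i, n i • d i ∧
      ∑ i, n i * w i ≤ k * ∑ i, t i * w i := by
  classical
  obtain ⟨k, hk, H⟩ := exists_sat' d
  refine ⟨k, hk, fun w hw a t ht h => ?_⟩
  obtain ⟨t', h1, h2, h3, h4, h5⟩ := exists_basic (fun i j => (d i j : ℝ)) hw t ht
  have h6 : ∀ j, (a j : ℝ) = ∑ i, t' i * d i j := fun j => by
    simpa [h j] using (congrFun h3 j).symm
  obtain ⟨m, hm, h7⟩ := exists_nsmul_mem d h1 h6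
  obtain ⟨n', h8, h9⟩ := mem_closure_image.1 (H _ a m hm h7)
  have h10 : ∀ i, (n' i : ℝ) = k * t' i := fun i =>
    sub_eq_zero.1 (linIndepOn_iff.1 h5 (fun i => n' i - k * t' i)
      (fun i hi => by rw [h8 i hi, show t' i = 0 by simpa using hi]; simp) (funext fun j => by
        have := congrArg (Int.cast : ℤ → ℝ) (congrFun h9 j)
        simp only [Pi.smul_apply, nsmul_eq_mul, Finset.sum_apply, Int.cast_mul, Int.cast_natCast,
          Int.cast_sum, h6, mul_sum] at this
        simp [sub_mul, this, mul_assoc]) i)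
  refine ⟨n', fun i hi => h8 i (by simpa using h2 i hi), h9, ?_⟩
  simp only [h10, mul_assoc, ← mul_sum]
  exact mul_le_mul_of_nonneg_left h4 (Nat.cast_nonneg k)

/-! ### one grading -/

theorem exists_le_deg {d : J → ℕ} {D : ℕ} (hD : ∀ i, d i ≠ 0 → d i ∣ D) (j : ℕ) (n : J → ℕ)
    (h : (Fintype.card J + j) * D ≤ ∑ i, n i * d i) : ∃ n' ≤ n, ∑ i, n' i * d i = j * D := by
  classical
  induction j generalizing n with
  | zero => exact ⟨0, bot_le, by simp⟩
  | succ j ih =>
    rcases Nat.eq_zero_or_pos D with rfl | h0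
    · exact ⟨0, bot_le, by simp⟩
    obtain ⟨i, hi⟩ : ∃ i, D ≤ n i * d i := by
      by_contra H
      push Not at H
      have := sum_le_card_nsmul univ (fun i => n i * d i) D fun i _ => (H i).le
      rw [card_univ, smul_eq_mul] at this
      nlinarith
    obtain ⟨c, hc⟩ := hD i fun e => by simp [e, h0.ne'] at hi
    have h1 : c ≤ n i := by
      rw [hc, mul_comm] at hi
      exact Nat.le_of_mul_le_mul_right hi (Nat.pos_of_ne_zero fun e => by simp [hc, e] at h0)
    have h2 : (Pi.single i c : J → ℕ) ≤ n := fun l => by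
      by_cases e : l = i
      · subst e
        simpa using h1
      · simp [e]
    obtain ⟨r, rfl⟩ := exists_add_of_le h2
    have h3 : ∀ r : J → ℕ, ∑ l, (Pi.single i c + r : J → ℕ) l * d l = D + ∑ l, r l * d l :=
      fun r => by
        simp only [Pi.add_apply, add_mul, sum_add_distrib]
        rw [sum_eq_single i (fun l _ e => by simp [e]) (by simp), Pi.single_eq_same, hc, mul_comm]
    obtain ⟨n', h4, h5⟩ := ih r (by rw [h3] at h; nlinarith)
    exact ⟨Pi.single i c + n', add_le_add le_rfl h4, by rw [h3, h5]; ring⟩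

end P277Z.Gr
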