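import Vale.Agent.P277Z.Gr.Defs
import Vale.Agent.P277Z.Gr.Sat

/-!
# P277Z, block Gr: base loci and orders of a finitely generated family
-/

noncomputable section

namespace P277Z.Gr

open Finset

variable {O K M : Type*} [CommRing O] [CommRing K] [Algebra O K] [AddCommMonoid M]
  {H P : M → Submodule O K} {S : Set M} {J : Type} [Fintype J] {d : J → M} {u : J → K}

/-- `u i` of degree `d i` generate `H` on `S` -/
structure Gens (H : M → Submodule O K) (S : Set M) (d : J → M) (u : J → K) : Prop where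
  mem : ∀ i, u i ∈ H (d i)
  le : ∀ a ∈ S, H a ≤ Submodule.span O {g | ∃ n : J → ℕ, ∑ i, n i • d i = a ∧ ∏ i, u i ^ n i = g}

theorem FG.gens (h : FG H S) : ∃ (q : ℕ) (d : Fin q → M) (u : Fin q → K), Gens H S d u := by
  obtain ⟨q, d, u, h1, h2⟩ := FGm.exists_fin h
  refine ⟨q, d, u, h1, fun a ha => ?_⟩
  simpa only [sup_bot_eq, gen, Mono.iff_range] using h2 a ha

theorem Gens.prod_mem (hH : Fam H) (G : Gens H S d u) (n : J → ℕ) :
    ∏ i, u i ^ n i ∈ H (∑ i, n i • d i) := hH.prod _ fun i _ => hH.pow (G.mem i) _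

/-! ### base loci -/

theorem Prm.pow_notMem (hH : Fam H) (hP : Prm H P) (h1 : (1 : K) ∉ P 0) {a : M} {f : K}
    (hf : f ∈ H a) (h : f ∉ P a) (n : ℕ) : f ^ n ∉ P (n • a) := by
  induction n with
  | zero => simpa using h1
  | succ n ih =>
    rw [pow_succ, succ_nsmul]
    exact fun e => (hP (hH.pow hf n) hf e).elim ih h

theorem Prm.prod_notMem (hH : Fam H) (hP : Prm H P) (h1 : (1 : K) ∉ P 0) {I : Type*} (s : Finset I)
    {a : I → M} {f : I → K} (hf : ∀ i ∈ s, f i ∈ H (a i)) (h : ∀ i ∈ s, f i ∉ P (a i)) :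
    ∏ i ∈ s, f i ∉ P (∑ i ∈ s, a i) := by
  classical
  induction s using Finset.induction_on with
  | empty => simpa using h1
  | insert i s hi ih =>
    rw [prod_insert hi, sum_insert hi]
    exact fun e => (hP (hf i (mem_insert_self _ _))
      (hH.prod s fun j hj => hf j (mem_insert_of_mem hj)) e).elim (h i (mem_insert_self _ _))
      (ih (fun j hj => hf j (mem_insert_of_mem hj)) fun j hj => h j (mem_insert_of_mem hj))

/-- the degrees where some element is not in `P` form a monoid -/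
theorem Prm.not_le_nsmul (hH : Fam H) (hP : Prm H P) (h1 : (1 : K) ∉ P 0) {a : M}
    (h : ¬H a ≤ P a) (n : ℕ) : ¬H (n • a) ≤ P (n • a) := by
  obtain ⟨f, hf, h2⟩ := SetLike.not_le_iff_exists.1 h
  exact fun e => hP.pow_notMem hH h1 hf h2 n (e (hH.pow hf n))

theorem Prm.not_le_add (hH : Fam H) (hP : Prm H P) {a b : M} (ha : ¬H a ≤ P a) (hb : ¬H b ≤ P b) :
    ¬H (a + b) ≤ P (a + b) := by
  obtain ⟨f, hf, h2⟩ := SetLike.not_le_iff_exists.1 ha
  obtain ⟨g, hg, h3⟩ := SetLike.not_le_iff_exists.1 hb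
  exact fun e => (hP hf hg (e (hH.mul hf hg))).elim h2 h3

theorem Gens.not_le_of (hH : Fam H) (G : Gens H S d u) (hP : Prm H P) (h1 : (1 : K) ∉ P 0)
    {n : J → ℕ} (hn : ∀ i, u i ∈ P (d i) → n i = 0) :
    ¬H (∑ i, n i • d i) ≤ P (∑ i, n i • d i) := fun e =>
  hP.prod_notMem hH h1 univ (fun i _ => hH.pow (G.mem i) _) (fun i _ => by
    by_cases e : u i ∈ P (d i)
    · simpa [hn i e] using h1
    · exact hP.pow_notMem hH h1 (G.mem i) e _) (e (G.prod_mem hH n))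

theorem Gens.exists_of_not_le (hH : Fam H) (G : Gens H S d u) (hI : Idl H P) {a : M} (ha : a ∈ S)
    (h : ¬H a ≤ P a) : ∃ n : J → ℕ, (∀ i, u i ∈ P (d i) → n i = 0) ∧ a = ∑ i, n i • d i := by
  classical
  by_contra H0
  refine h ((G.le a ha).trans (Submodule.span_le.2 ?_))
  rintro _ ⟨n, rfl, rfl⟩
  by_contra h2
  refine H0 ⟨n, fun i hi => ?_, rfl⟩
  by_contra h3
  obtain ⟨m, hm⟩ := Nat.exists_eq_succ_of_ne_zero h3
  refine h2 ?_
  rw [← mul_prod_erase _ _ (mem_univ i), ← add_sum_erase _ _ (mem_univ i), hm, pow_succ,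
    succ_nsmul, mul_right_comm, add_right_comm]
  exact hI (hH.mul (hH.pow (G.mem i) m) (hH.prod _ fun j _ => hH.pow (G.mem j) _)) hi

theorem cast_eq_sum {ι : Type} {d : J → ι → ℤ} {m : ℕ} (hm : (m : ℝ) ≠ 0) {a : ι → ℤ} {n : J → ℕ}
    (h : m • a = ∑ i, n i • d i) (j : ι) : (a j : ℝ) = ∑ i, n i / m * (d i j : ℝ) := by
  have := congrArg (Int.cast : ℤ → ℝ) (congrFun h j)
  rw [Finset.sum_apply] at this
  simp only [Pi.smul_apply, nsmul_eq_mul, Int.cast_mul, Int.cast_natCast, Int.cast_sum] at this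
  simp only [div_mul_eq_mul_div, ← sum_div, ← this]
  field_simp

/-- **the base locus of a finitely generated family**, with one multiple `k` for all `P` -/
theorem Gens.exists_base {ι : Type} [Finite ι] {H : (ι → ℤ) → Submodule O K} {S : Set (ι → ℤ)}
    {d : J → ι → ℤ} (hH : Fam H) (G : Gens H S d u) : ∃ k : ℕ, 1 ≤ k ∧
    ∀ P : (ι → ℤ) → Submodule O K, Idl H P → Prm H P → (1 : K) ∉ P 0 → ∀ a : ι → ℤ,
      ((∃ t : J → ℝ, (∀ i, 0 ≤ t i) ∧ (∀ i, u i ∈ P (d i) → t i = 0) ∧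
        ∀ j, (a j : ℝ) = ∑ i, t i * d i j) → ¬H (k • a) ≤ P (k • a)) ∧
      ∀ m : ℕ, 1 ≤ m → m • a ∈ S → ¬H (m • a) ≤ P (m • a) →
        ∃ t : J → ℝ, (∀ i, 0 ≤ t i) ∧ (∀ i, u i ∈ P (d i) → t i = 0) ∧
          ∀ j, (a j : ℝ) = ∑ i, t i * d i j := by
  obtain ⟨k, hk, h⟩ := exists_lp d
  refine ⟨k, hk, fun P hI hP h1 a => ⟨fun ⟨t, a1, a2, a3⟩ => ?_, fun m hm hS h2 => ?_⟩⟩
  · obtain ⟨n, b1, b2, -⟩ := h 0 (fun _ => le_rfl) a t a1 a3
    rw [b2]
    exact G.not_le_of hH hP h1 fun i hi => b1 i (a2 i hi)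
  · obtain ⟨n, b1, b2⟩ := G.exists_of_not_le hH hI hS h2
    have h3 : (m : ℝ) ≠ 0 := by positivity
    refine ⟨fun i => n i / m, fun i => by positivity, fun i hi => by simp [b1 i hi], fun j => ?_⟩
    exact cast_eq_sum h3 b2 j

theorem FG.exists_base {ι : Type} [Finite ι] {H : (ι → ℤ) → Submodule O K} {S : Set (ι → ℤ)}
    (hH : Fam H) (h : FG H S) : ∃ k : ℕ, 1 ≤ k ∧ ∀ P : (ι → ℤ) → Submodule O K, Idl H P → Prm H P →
      (1 : K) ∉ P 0 → ∀ (a : ι → ℤ) (m : ℕ), 1 ≤ m → m • a ∈ S → ¬H (m • a) ≤ P (m • a) →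
        ¬H (k • a) ≤ P (k • a) := by
  obtain ⟨q, d, u, G⟩ := h.gens
  obtain ⟨k, hk, h1⟩ := G.exists_base hH
  exact ⟨k, hk, fun P a1 a2 a3 a m b1 b2 b3 =>
    (h1 P a1 a2 a3 a).1 ((h1 P a1 a2 a3 a).2 m b1 b2 b3)⟩

/-! ### orders of vanishing -/

/-- `o a f` is the order of vanishing of the element `f` of degree `a` -/
structure IsOrd (H : M → Submodule O K) (o : M → K → ℕ∞) : Prop where
  zero : ∀ a, o a 0 = ⊤
  one : o 0 1 = 0
  mul : ∀ {a b : M} {f g : K}, f ∈ H a → g ∈ H b → o (a + b) (f * g) = o a f + o b g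
  add : ∀ {a : M} {f g : K}, f ∈ H a → g ∈ H a → min (o a f) (o a g) ≤ o a (f + g)
  smul : ∀ {a : M} (c : O) {f : K}, f ∈ H a → o a f ≤ o a (c • f)

variable {o : M → K → ℕ∞}

theorem IsOrd.pow (hH : Fam H) (h : IsOrd H o) {a : M} {f : K} (hf : f ∈ H a) (n : ℕ) :
    o (n • a) (f ^ n) = n • o a f := by
  induction n with
  | zero => simpa using h.one
  | succ n ih => rw [pow_succ, succ_nsmul, h.mul (hH.pow hf n) hf, ih, succ_nsmul]

theorem IsOrd.prod (hH : Fam H) (h : IsOrd H o) {I : Type*} (s : Finset I) {a : I → M} {f : I → K}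
    (hf : ∀ i ∈ s, f i ∈ H (a i)) : o (∑ i ∈ s, a i) (∏ i ∈ s, f i) = ∑ i ∈ s, o (a i) (f i) := by
  classical
  induction s using Finset.induction_on with
  | empty => simpa using h.one
  | insert i s hi ih =>
    rw [prod_insert hi, sum_insert hi, sum_insert hi, h.mul (hf i (mem_insert_self _ _))
      (hH.prod s fun j hj => hf j (mem_insert_of_mem hj)),
      ih fun j hj => hf j (mem_insert_of_mem hj)]

theorem Gens.ord_prod (hH : Fam H) (G : Gens H S d u) (h : IsOrd H o) (n : J → ℕ) :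
    o (∑ i, n i • d i) (∏ i, u i ^ n i) = ∑ i, n i • o (d i) (u i) := by
  rw [h.prod hH _ fun i _ => hH.pow (G.mem i) _]
  exact sum_congr rfl fun i _ => h.pow hH (G.mem i) _

/-- the least order is attained at a monomial -/
theorem Gens.exists_ord_le (hH : Fam H) (G : Gens H S d u) (h : IsOrd H o) {a : M} (ha : a ∈ S)
    {f : K} (hf : f ∈ H a) (h0 : o a f ≠ ⊤) :
    ∃ n : J → ℕ, a = ∑ i, n i • d i ∧ ∑ i, n i • o (d i) (u i) ≤ o a f := by
  by_contra H0
  push Not at H0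
  have : ∀ g ∈ Submodule.span O {g | ∃ n : J → ℕ, ∑ i, n i • d i = a ∧ ∏ i, u i ^ n i = g},
      g ∈ H a ∧ o a f < o a g := fun g hg => by
    induction hg using Submodule.span_induction with
    | mem x hx =>
      obtain ⟨n, rfl, rfl⟩ := hx
      exact ⟨G.prod_mem hH n, by rw [G.ord_prod hH h]; exact H0 n rfl⟩
    | zero => exact ⟨zero_mem _, by rw [h.zero]; exact h0.lt_top⟩
    | add x y _ _ hx hy =>
      exact ⟨add_mem hx.1 hy.1, (lt_min hx.2 hy.2).trans_le (h.add hx.1 hy.1)⟩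
    | smul c x _ hx => exact ⟨(H a).smul_mem c hx.1, hx.2.trans_le (h.smul c hx.1)⟩
  exact (this f (G.le a ha hf)).2.false

/-- **orders of a finitely generated family**: the value of the linear program is attained in
degree `k • a`, with one `k` for all orders, and it is a lower bound in all degrees `m • a` -/
theorem Gens.exists_ord {ι : Type} [Finite ι] {H : (ι → ℤ) → Submodule O K} {S : Set (ι → ℤ)}
    {d : J → ι → ℤ} (hH : Fam H) (G : Gens H S d u) : ∃ k : ℕ, 1 ≤ k ∧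
    ∀ o : (ι → ℤ) → K → ℕ∞, IsOrd H o → ∀ a : ι → ℤ,
      (∀ t : J → ℝ, (∀ i, 0 ≤ t i) → (∀ i, o (d i) (u i) = ⊤ → t i = 0) →
        (∀ j, (a j : ℝ) = ∑ i, t i * d i j) → ∃ f ∈ H (k • a), o (k • a) f ≠ ⊤ ∧
          ((o (k • a) f).toNat : ℝ) ≤ k * ∑ i, t i * (o (d i) (u i)).toNat) ∧
      ∀ m : ℕ, 1 ≤ m → m • a ∈ S → ∀ f ∈ H (m • a), o (m • a) f ≠ ⊤ →
        ∃ t : J → ℝ, (∀ i, 0 ≤ t i) ∧ (∀ i, o (d i) (u i) = ⊤ → t i = 0) ∧
          (∀ j, (a j : ℝ) = ∑ i, t i * d i j) ∧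
          m * ∑ i, t i * (o (d i) (u i)).toNat ≤ ((o (m • a) f).toNat : ℝ) := by
  obtain ⟨k, hk, h⟩ := exists_lp d
  have key : ∀ (x : J → ℕ∞) (n : J → ℕ), (∀ i, x i = ⊤ → n i = 0) →
      ∑ i, n i • x i = (∑ i, n i * (x i).toNat : ℕ) := fun x n hn => by
    rw [Nat.cast_sum]
    refine sum_congr rfl fun i _ => ?_
    by_cases e : x i = ⊤
    · simp [hn i e]
    · rw [Nat.cast_mul, ENat.natCast_toNat e, nsmul_eq_mul]
  refine ⟨k, hk, fun o ho a => ⟨fun t a1 a2 a3 => ?_, fun m hm hS f hf h2 => ?_⟩⟩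
  · obtain ⟨n, b1, b2, b3⟩ := h (fun i => (o (d i) (u i)).toNat) (fun _ => Nat.cast_nonneg _)
      a t a1 a3
    refine ⟨∏ i, u i ^ n i, b2 ▸ G.prod_mem hH n, ?_⟩
    rw [b2, G.ord_prod hH ho, key _ n fun i hi => b1 i (a2 i hi), ENat.toNat_natCast]
    exact ⟨ENat.natCast_ne_top _, by exact_mod_cast b3⟩
  · obtain ⟨n, b1, b2⟩ := G.exists_ord_le hH ho hS hf h2
    have h3 : (m : ℝ) ≠ 0 := by positivity
    have h4 : ∀ i, o (d i) (u i) = ⊤ → n i = 0 := fun i hi => by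
      by_contra e
      have := (single_le_sum (f := fun i => n i • o (d i) (u i)) (fun _ _ => bot_le)
        (mem_univ i)).trans b2
      rw [hi, nsmul_eq_mul, ENat.mul_top (by exact_mod_cast e)] at this
      exact h2 (top_le_iff.1 this)
    refine ⟨fun i => n i / m, fun i => by positivity, fun i hi => by simp [h4 i hi], fun j => ?_, ?_⟩
    · exact cast_eq_sum h3 b1 j
    · rw [key _ n h4, ← ENat.natCast_toNat h2, Nat.cast_le] at b2
      simp only [div_mul_eq_mul_div, ← sum_div, mul_div_cancel₀ _ h3]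
      exact_mod_cast b2

theorem FG.exists_ord {ι : Type} [Finite ι] {H : (ι → ℤ) → Submodule O K} {S : Set (ι → ℤ)}
    (hH : Fam H) (h : FG H S) : ∃ k : ℕ, 1 ≤ k ∧ ∀ o : (ι → ℤ) → K → ℕ∞, IsOrd H o →
      ∀ (a : ι → ℤ) (m : ℕ), 1 ≤ m → m • a ∈ S → ∀ f ∈ H (m • a),
        ∃ g ∈ H (k • a), m • o (k • a) g ≤ k • o (m • a) f := by
  obtain ⟨q, d, u, G⟩ := h.gens
  obtain ⟨k, hk, h1⟩ := G.exists_ord hH
  refine ⟨k, hk, fun o ho a m hm hS f hf => ?_⟩
  by_cases e : o (m • a) f = ⊤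
  · exact ⟨0, zero_mem _, by
      rw [e, nsmul_eq_mul k ⊤, ENat.mul_top (by exact_mod_cast (by omega : k ≠ 0))]
      exact le_top⟩
  obtain ⟨t, a1, a2, a3, a4⟩ := (h1 o ho a).2 m hm hS f hf e
  obtain ⟨g, b1, b2, b3⟩ := (h1 o ho a).1 t a1 a2 a3
  refine ⟨g, b1, ?_⟩
  rw [← ENat.natCast_toNat e, ← ENat.natCast_toNat b2, nsmul_eq_mul m (_ : ℕ∞),
    nsmul_eq_mul k (_ : ℕ∞)]
  have : (m : ℝ) * (o (k • a) g).toNat ≤ k * (o (m • a) f).toNat := by
    nlinarith [mul_le_mul_of_nonneg_left b3 (Nat.cast_nonneg (α := ℝ) m),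
      mul_le_mul_of_nonneg_left a4 (Nat.cast_nonneg (α := ℝ) k)]
  exact_mod_cast this

/-! ### one grading -/

/-- a truncation is generated in degree one -/
theorem FG.exists_pow {H : ℕ → Submodule O K} (hH : Fam H) (h : FG H Set.univ) :
    ∃ r : ℕ, 1 ≤ r ∧ ∀ m, H ((m + 1) * r) = H r ^ (m + 1) := by
  classical
  obtain ⟨q, d, u, G⟩ := h.gens
  let D := ∏ i, max (d i) 1
  have hD : 1 ≤ D := one_le_prod' fun _ _ => le_max_right _ _
  refine ⟨(q + 1) * D, by nlinarith, fun m => ?_⟩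
  induction m with
  | zero => rw [zero_add, one_mul, pow_one]
  | succ m ih =>
    rw [pow_succ, ← ih]
    refine le_antisymm ((G.le _ trivial).trans (Submodule.span_le.2 ?_))
      (Submodule.mul_le.2 fun f hf g hg => ?_)
    · rintro _ ⟨n, hn, rfl⟩
      obtain ⟨n', h1, h2⟩ := exists_le_deg (d := d) (D := D) (fun i hi => by
        have := dvd_prod_of_mem (fun i => max (d i) 1) (mem_univ i)
        rwa [max_eq_left (Nat.pos_of_ne_zero hi)] at this) (q + 1) n (by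
        rw [Fintype.card_fin, show ∑ i, n i * d i = _ from hn]
        nlinarith [Nat.zero_le (m * ((q + 1) * D))])
      obtain ⟨r, rfl⟩ := exists_add_of_le h1
      have h3 : ∑ i, r i • d i = (m + 1) * ((q + 1) * D) := by
        simp only [Pi.add_apply, smul_eq_mul, add_mul, sum_add_distrib, h2] at hn ⊢
        omega
      simp only [Pi.add_apply, pow_add, prod_mul_distrib]
      rw [mul_comm (∏ i, u i ^ n' i)]
      exact Submodule.mul_mem_mul (h3 ▸ G.prod_mem hH r)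
        ((show ∑ i, n' i • d i = _ from h2) ▸ G.prod_mem hH n')
    · rw [add_mul (m + 1), one_mul]
      exact hH.mul hf hg

end P277Z.Gr
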