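import Vale.Agent.P277Z.Gr.A63

/-!
# The final step of the finite generation theorem, with one ample part for each generator
-/

noncomputable section

namespace P277Z.Gr

open Finset

variable {O K M : Type*} [CommRing O] [CommRing K] [Algebra O K]

/-- The final step. -/
theorem a63' [IsNoetherianRing O] [AddCommGroup M] {J : Type} [Fintype J]
    {H : M → Submodule O K} (hH : Fam H) (e : J → M) (σ : J → K)
    (hσ : ∀ j, σ j ∈ H (e j)) (N : J → M → Submodule O K) (hNi : ∀ j, Idl H (N j))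
    (hNp : ∀ j, Prm H (N j)) (hNσ : ∀ j a, ∀ f ∈ N j a, ∃ g ∈ H (a - e j), σ j * g = f)
    (hfin : ∀ a, (H a).FG) {k : ℕ} (κ : Fin k → M) (m : Fin k → ℕ) (b n : Fin k → J → ℕ)
    (hb : ∀ i l, b i l < m i)
    (hres : ∀ j, ∀ S : AddSubmonoid M, S.FG → (∀ a ∈ S, ∃ (t : Fin k → ℕ) (c : J → ℕ),
      (∀ l, c l ≤ ∑ i, t i * m i) ∧ c j = ∑ i, t i * m i ∧
        ∑ i, t i • κ i + ∑ l, c l • e l = a) → FGm H (N j) (S : Set M))
    (u u' : Fin k → K) (hu : ∀ i, u i ∈ H (κ i + ∑ l, b i l • e l - ∑ l, n i l • e l))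
    (hu' : ∀ i, u' i ∈ H (-(κ i + ∑ l, b i l • e l - ∑ l, n i l • e l)))
    (huu : ∀ i, u i * u' i = 1) :
    FG H (AddSubmonoid.closure (Set.range fun i => κ i + ∑ l, b i l • e l) : Set M) := by
  classical
  have hb1 : ∀ i l, b i l < 1 * m i := fun i l => by rw [one_mul]; exact hb i l
  let E : (J → ℤ) →+ M :=
    { toFun := fun α => ∑ l, α l • e l
      map_zero' := by simp
      map_add' := fun α β => by simp [add_smul, sum_add_distrib] }
  have hE : ∀ α, E α = ∑ l, α l • e l := fun _ => rfl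
  let τ : (Fin k ⊕ J ⊕ J → ℕ) →+ (Fin k → ℕ) :=
    { toFun := fun x i => x (.inl i), map_zero' := rfl, map_add' := fun _ _ => rfl }
  let D : (Fin k ⊕ J ⊕ J → ℕ) →+ M :=
    { toFun := fun x => ∑ i, x (.inl i) • κ i +
        ∑ l, (∑ i, x (.inl i) * b i l + x (.inr (.inl l))) • e l
      map_zero' := by simp
      map_add' := fun x y => by
        simp only [Pi.add_apply, add_mul, sum_add_distrib, add_smul]; abel }
  have hD : ∀ x, D x = ∑ i, x (.inl i) • κ i +
      ∑ l, (∑ i, x (.inl i) * b i l + x (.inr (.inl l))) • e l := fun _ => rfl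
  have hswap : ∀ (t : Fin k → ℕ) (v : Fin k → J → ℕ),
      ∑ l, (∑ i, t i * v i l) • e l = ∑ i, t i • ∑ l, v i l • e l := by
    intro t v
    simp only [sum_smul, smul_sum, mul_smul]
    exact sum_comm
  have hDE : ∀ x, D x - E (coneA n x) =
      ∑ i, τ x i • (κ i + ∑ l, b i l • e l - ∑ l, n i l • e l) := by
    intro x
    rw [hD, hE]
    simp only [coneA_apply, natCast_zsmul, add_smul, sum_add_distrib, smul_sub, smul_add,
      sum_sub_distrib, sum_smul, mul_smul]
    show _ = ∑ i, x (.inl i) • κ i + ∑ i, x (.inl i) • ∑ l, b i l • e l -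
      ∑ i, x (.inl i) • ∑ l, n i l • e l
    simp only [smul_sum]
    rw [sum_comm (f := fun i l => x (.inl i) • b i l • e l),
      sum_comm (f := fun i l => x (.inl i) • n i l • e l)]
    abel
  have hH' : Fam fun α => H (E α) := hH.comap E
  have hCj : ∀ j, FGm (fun α => H (E α)) (fun α => N j (E α))
      (sat ((coneP 1 m b {j}).map (coneA n)) : Set (J → ℤ)) := by
    intro j
    refine FGm.of_sat hH' (Idl.comap (hNi j) E) (Prm.comap (hNp j) E) ((coneP_fg 1 m b {j}).map _) ?_
    rw [AddSubmonoid.coe_map]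
    refine FGm.map (coneA n) ?_
    have h0 := hres j ((coneP 1 m b {j}).map D) ((coneP_fg 1 m b {j}).map _) (by
      rintro _ ⟨x, ⟨h1, h2⟩, rfl⟩
      refine ⟨fun i => x (.inl i), _, fun l => ?_, ?_, (hD x).symm⟩
      · have := h1 l; beta_reduce; omega
      · have := h1 j; have := h2 j rfl; beta_reduce; omega)
    have h1 := h0.comap hH D (coneP 1 m b {j}) (coneP_fg 1 m b {j}) fun x hx => ⟨x, hx, rfl⟩
    refine FGm.unit_fin hH (hNi j) D (E.comp (coneA n)) τ
      (fun i => -(κ i + ∑ l, b i l • e l - ∑ l, n i l • e l)) (fun x => ?_) u' u hu'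
      (fun i => by rw [neg_neg]; exact hu i) (fun i => by rw [mul_comm, huu]) h1
    rw [← neg_sub, AddMonoidHom.comp_apply, hDE, ← sum_neg_distrib]
    simp only [smul_neg]
  have hEs : ∀ j, E (Pi.single j 1) = e j := fun j => by
    rw [hE, sum_eq_single j] <;> simp +contextual
  have hC : FG (fun α => H (E α)) (sat ((coneP 1 m b ∅).map (coneA n)) : Set (J → ℤ)) := by
    refine fg_of_res (fun j => (sat ((coneP 1 m b {j}).map (coneA n)) : Set (J → ℤ)))
      (fun j α => N j (E α)) (fun j => Pi.single j 1) σ (fun j => by rw [hEs]; exact hσ j)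
      (fun α => (∑ l, α l).toNat)
      (Set.Icc (0 : J → ℤ) (fun l => ((∑ i, (n i l + 1 * m i) : ℕ) : ℤ)))
      (fgm_of_finite (Set.finite_Icc _ _) fun a _ => hfin _) hCj fun α hα => ?_
    rcases cone_step n hb1 hα with h | ⟨j, h1, h2, h3⟩
    · exact Or.inl h
    · refine Or.inr ⟨j, h1, α - Pi.single j 1, h3, ?_, add_sub_cancel _ _, fun f hf => ?_⟩
      · have h4 : ∀ l, 0 ≤ (α - Pi.single j 1 : J → ℤ) l := by
          obtain ⟨q, hq, x, -, hx⟩ := h3
          intro l
          have h5 := congrFun hx l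
          rw [coneA_apply, Pi.smul_apply, nsmul_eq_mul] at h5
          by_contra h
          push Not at h
          have h6 : (q : ℤ) * (α - Pi.single j 1 : J → ℤ) l < 0 :=
            mul_neg_of_pos_of_neg (by exact_mod_cast hq) h
          omega
        have h5 : 0 ≤ ∑ l, (α - Pi.single j 1 : J → ℤ) l := sum_nonneg fun l _ => h4 l
        have h6 : ∑ l, (α - Pi.single j 1 : J → ℤ) l = ∑ l, α l - 1 := by
          simp [sum_sub_distrib]
        show (∑ l, (α - Pi.single j 1 : J → ℤ) l).toNat < (∑ l, α l).toNat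
        omega
      · rw [map_sub, hEs]; exact hNσ j _ f hf
  let ι₀ : (Fin k → ℕ) →+ (Fin k ⊕ J ⊕ J → ℕ) :=
    { toFun := fun t => Sum.elim t 0
      map_zero' := by ext x; rcases x with x | x <;> rfl
      map_add' := fun s t => by ext x; rcases x with x | x <;> rfl }
  have htop : (⊤ : AddSubmonoid (Fin k → ℕ)).FG := AddSubmonoid.fg_of_subtractive (by simp)
  have h1 := FGm.comap hH' hC ((coneA n).comp ι₀) ⊤ htop (by
    intro t _
    refine le_sat _ ⟨Sum.elim t (Sum.elim 0 fun l => 1 * ∑ i, t i * m i - ∑ i, t i * b i l),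
      ⟨fun l => ?_, by simp⟩, rfl⟩
    have : ∑ i, t i * b i l ≤ 1 * ∑ i, t i * m i := by
      rw [mul_sum]
      refine sum_le_sum fun i _ => ?_
      rw [mul_left_comm]; exact Nat.mul_le_mul_left _ (hb1 i l).le
    show ∑ i, t i * b i l + 0 + (1 * ∑ i, t i * m i - ∑ i, t i * b i l) = 1 * ∑ i, t i * m i
    omega)
  have hb0 : Idl H fun _ => ⊥ := @idl_bot _ _ _ _ _ _ _ H
  have h2 := FGm.unit_fin (N := fun _ => ⊥) hH (@hb0) (E.comp ((coneA n).comp ι₀)) (D.comp ι₀)
    (τ.comp ι₀) _ (fun x => hDE (ι₀ x)) u u' hu hu' huu h1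
  refine (FGm.map (H := H) (N := fun _ => ⊥) (D.comp ι₀) h2).mono ?_
  intro a ha
  rw [SetLike.mem_coe, ← Submodule.span_nat_eq_addSubmonoidClosure, Submodule.mem_toAddSubmonoid,
    Submodule.mem_span_range_iff_exists_fun] at ha
  obtain ⟨t, rfl⟩ := ha
  refine ⟨t, trivial, ?_⟩
  rw [AddMonoidHom.comp_apply, hD]
  show ∑ i, t i • κ i + ∑ l, (∑ i, t i * b i l + 0) • e l = _
  simp only [add_zero]
  rw [hswap]
  simp only [smul_add, sum_add_distrib]

end P277Z.Gr
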