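import Vale.Agent.P277Z.Gr.Res
import Vale.Agent.P277Z.Gr.Sat

/-!
# Saturation, units, and the final step of the finite generation theorem
-/

noncomputable section

namespace P277Z.Gr

open Finset

variable {O K M : Type*} [CommRing O] [CommRing K] [Algebra O K]

/-- The saturation of a submonoid. -/
def sat [AddCommMonoid M] (S : AddSubmonoid M) : AddSubmonoid M where
  carrier := {a | ∃ m : ℕ, 1 ≤ m ∧ m • a ∈ S}
  zero_mem' := ⟨1, le_rfl, by simp⟩
  add_mem' := by
    rintro a b ⟨m, hm, ha⟩ ⟨n, hn, hb⟩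
    refine ⟨m * n, Nat.mul_pos hm hn, ?_⟩
    rw [smul_add]
    refine S.add_mem ?_ ?_
    · rw [mul_comm, mul_smul]; exact S.nsmul_mem ha _
    · rw [mul_smul]; exact S.nsmul_mem hb _

theorem mem_sat [AddCommMonoid M] {S : AddSubmonoid M} {a : M} :
    a ∈ sat S ↔ ∃ m : ℕ, 1 ≤ m ∧ m • a ∈ S := Iff.rfl

theorem le_sat [AddCommMonoid M] (S : AddSubmonoid M) : S ≤ sat S :=
  fun _ ha => ⟨1, le_rfl, by simpa using ha⟩

theorem sat_fg {ι : Type} [Finite ι] {S : AddSubmonoid (ι → ℤ)} (hS : S.FG) : (sat S).FG := by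
  classical
  have := Fintype.ofFinite ι
  obtain ⟨l, d, hd, hgen⟩ := exists_fin_closure hS
  let B : ι → ℤ := fun j => ∑ i, |d i j|
  have hF : {r | r ∈ Set.Icc (-B) B ∧ r ∈ sat S}.Finite :=
    (Set.finite_Icc _ _).subset fun _ h => h.1
  refine (AddSubmonoid.fg_iff _).2 ⟨{r | r ∈ Set.Icc (-B) B ∧ r ∈ sat S} ∪ Set.range d,
    le_antisymm ((AddSubmonoid.closure_le).2 ?_) ?_, hF.union (Set.finite_range d)⟩
  · rintro x (hx | ⟨i, rfl⟩)
    · exact hx.2
    · exact le_sat S (hd i)
  · rintro a ⟨m, hm, h⟩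
    obtain ⟨n, hn⟩ := hgen _ h
    let q := ∑ i, (n i / m) • d i
    have e : m • (a - q) = ∑ i, (n i % m) • d i := by
      rw [smul_sub, ← hn, smul_sum, ← sum_sub_distrib]
      refine sum_congr rfl fun i _ => ?_
      rw [smul_smul, sub_eq_iff_eq_add, ← add_smul, Nat.mod_add_div]
    have hb : ∀ j, |(a - q) j| ≤ B j := fun j => by
      have h1 : (m : ℤ) * |(a - q) j| ≤ m * B j := by
        have h2 := congrFun e j
        rw [Pi.smul_apply, nsmul_eq_mul, Finset.sum_apply] at h2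
        rw [← Int.abs_natCast m, ← abs_mul, h2, Int.abs_natCast, mul_sum]
        refine (abs_sum_le_sum_abs _ _).trans (sum_le_sum fun i _ => ?_)
        rw [Pi.smul_apply, nsmul_eq_mul, abs_mul, Int.abs_natCast]
        exact mul_le_mul_of_nonneg_right (by exact_mod_cast (Nat.mod_lt _ hm).le) (abs_nonneg _)
      exact le_of_mul_le_mul_left h1 (by exact_mod_cast hm)
    rw [← sub_add_cancel a q]
    refine add_mem (AddSubmonoid.subset_closure (Or.inl ⟨⟨fun j => (abs_le.1 (hb j)).1,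
      fun j => (abs_le.1 (hb j)).2⟩, m, hm, ?_⟩)) ?_
    · rw [e]
      exact S.sum_mem fun i _ => S.nsmul_mem (hd i) _
    · refine AddSubmonoid.sum_mem _ fun i _ => AddSubmonoid.nsmul_mem _
        (AddSubmonoid.subset_closure ?_) _
      exact Or.inr (Set.mem_range_self i)

/-- Finite generation passes to the saturation of the monoid of degrees. -/
theorem FGm.of_sat [IsNoetherianRing O] {ι : Type} [Finite ι] {H N : (ι → ℤ) → Submodule O K}
    (hH : Fam H) (hN : Idl H N) (hP : Prm H N) {S : AddSubmonoid (ι → ℤ)} (hS : S.FG)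
    (h : FGm H N (S : Set (ι → ℤ))) : FGm H N (sat S : Set (ι → ℤ)) := by
  obtain ⟨k, hk, h1⟩ := exists_sat_fg hS
  refine FGm.of_index hH hN hP _ (sat_fg hS) hk (h.mono ?_)
  rintro _ ⟨b, ⟨m, hm, hb⟩, rfl⟩
  exact h1 b m hm hb

/-- Change of the degrees by units. -/
theorem FGm.unit [AddCommGroup M] {M' : Type*} [AddCommMonoid M'] {H N : M → Submodule O K}
    (hH : Fam H) (hN : Idl H N) (φ ψ : M' →+ M) (w w' : M' → K) (hw : ∀ x, w x ∈ H (ψ x - φ x))
    (hw' : ∀ x, w' x ∈ H (φ x - ψ x)) (hww : ∀ x, w x * w' x = 1) (h0 : w 0 = 1)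
    (hadd : ∀ x y, w (x + y) = w x * w y) {S : Set M'}
    (h : FGm (fun a => H (φ a)) (fun a => N (φ a)) S) :
    FGm (fun a => H (ψ a)) (fun a => N (ψ a)) S := by
  obtain ⟨T, h1, h2, h3⟩ := h
  refine ⟨(fun t => (t.1, t.2 * w t.1)) '' T, h1.image _, ?_, fun a ha g hg => ?_⟩
  · rintro _ ⟨t, ht, rfl⟩
    have := hH.mul (h2 t ht) (hw t.1)
    rwa [add_sub_cancel] at this
  · have hm : ∀ x f, Mono T x f → Mono ((fun t => (t.1, t.2 * w t.1)) '' T) x (f * w x) := by
      intro x f hf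
      induction hf with
      | one => rw [h0, mul_one]; exact Mono.one
      | @mul a b f g ht _ ih =>
        rw [hadd, mul_mul_mul_comm]
        exact Mono.mul ⟨_, ht, rfl⟩ ih
    have hg' : g * w' a ∈ H (φ a) := by
      have := hH.mul hg (hw' a)
      rwa [add_sub_cancel] at this
    obtain ⟨x, hx, y, hy, hxy⟩ := Submodule.mem_sup.1 (h3 a ha hg')
    have e : g = x * w a + w a * y := by
      rw [mul_comm x, ← mul_add, hxy, mul_left_comm, hww, mul_one]
    rw [e]
    refine Submodule.add_mem_sup (mul_mem_of_span hx fun f hf => mem_gen (hm a f hf)) ?_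
    have := hN (hw a) hy
    rwa [sub_add_cancel] at this

/-- Change of finitely many generating degrees by units. -/
theorem FGm.unit_fin [AddCommGroup M] {M' : Type*} [AddCommMonoid M'] {H N : M → Submodule O K}
    (hH : Fam H) (hN : Idl H N) (φ ψ : M' →+ M) {I : Type*} [Fintype I] (τ : M' →+ (I → ℕ))
    (c : I → M) (hc : ∀ x, ψ x - φ x = ∑ i, τ x i • c i) (u u' : I → K) (hu : ∀ i, u i ∈ H (c i))
    (hu' : ∀ i, u' i ∈ H (-c i)) (huu : ∀ i, u i * u' i = 1) {S : Set M'}
    (h : FGm (fun a => H (φ a)) (fun a => N (φ a)) S) :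
    FGm (fun a => H (ψ a)) (fun a => N (ψ a)) S := by
  refine FGm.unit hH hN φ ψ (fun x => ∏ i, u i ^ τ x i) (fun x => ∏ i, u' i ^ τ x i)
    (fun x => ?_) (fun x => ?_) (fun x => ?_) (by simp) (fun x y => ?_) h
  · rw [hc]; exact hH.prod _ fun i _ => hH.pow (hu i) _
  · have e : φ x - ψ x = ∑ i, τ x i • (-c i) := by
      rw [← neg_sub, hc, ← sum_neg_distrib]; simp
    rw [e]; exact hH.prod _ fun i _ => hH.pow (hu' i) _
  · rw [← prod_mul_distrib]
    exact prod_eq_one fun i _ => by rw [← mul_pow, huu, one_pow]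
  · simp [pow_add, prod_mul_distrib]

section Cone

variable {J : Type} [Fintype J] {k : ℕ} (r : ℕ) (m : Fin k → ℕ) (b n : Fin k → J → ℕ)

/-- Lattice points `(t, β, γ)` with `∑ t b + β + γ = r ∑ t m`, and `γ = 0` on `Z`. -/
def coneP (Z : Set J) : AddSubmonoid (Fin k ⊕ J ⊕ J → ℕ) where
  carrier := {x | (∀ l, ∑ i, x (.inl i) * b i l + x (.inr (.inl l)) + x (.inr (.inr l)) =
    r * ∑ i, x (.inl i) * m i) ∧ ∀ l ∈ Z, x (.inr (.inr l)) = 0}
  zero_mem' := by simp
  add_mem' := by
    rintro x y ⟨h1, h2⟩ ⟨h3, h4⟩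
    refine ⟨fun l => ?_, fun l hl => by simp [h2 l hl, h4 l hl]⟩
    simp only [Pi.add_apply, add_mul, sum_add_distrib, mul_add]
    rw [← h1 l, ← h3 l]; ring

theorem coneP_fg (Z : Set J) : (coneP r m b Z).FG := by
  refine AddSubmonoid.fg_of_subtractive ?_
  rintro x ⟨h1, h2⟩ y ⟨h3, h4⟩
  refine ⟨fun l => ?_, fun l hl => ?_⟩
  · have := h3 l
    simp only [Pi.add_apply, add_mul, sum_add_distrib, mul_add] at this
    have := h1 l
    omega
  · have := h4 l hl
    simp only [Pi.add_apply] at this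
    omega

/-- The divisor `∑ t n + β`. -/
def coneA : (Fin k ⊕ J ⊕ J → ℕ) →+ (J → ℤ) where
  toFun x := fun l => ((∑ i, x (.inl i) * n i l + x (.inr (.inl l)) : ℕ) : ℤ)
  map_zero' := by ext l; simp
  map_add' x y := by
    ext l
    simp only [Pi.add_apply, add_mul, sum_add_distrib]
    push_cast; ring

omit [Fintype J] in
theorem coneA_apply (x : Fin k ⊕ J ⊕ J → ℕ) (l : J) :
    coneA n x l = ((∑ i, x (.inl i) * n i l + x (.inr (.inl l)) : ℕ) : ℤ) := rfl

variable {r m b}

theorem cone_step [DecidableEq J] (hb : ∀ i l, b i l < r * m i) {α : J → ℤ}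
    (hα : α ∈ sat ((coneP r m b ∅).map (coneA n))) :
    α ∈ Set.Icc (0 : J → ℤ) (fun l => ((∑ i, (n i l + r * m i) : ℕ) : ℤ)) ∨
      ∃ j, α ∈ sat ((coneP r m b {j}).map (coneA n)) ∧ 1 ≤ α j ∧
        α - Pi.single j 1 ∈ sat ((coneP r m b ∅).map (coneA n)) := by
  obtain ⟨q, hq, x, ⟨hx, -⟩, hxα⟩ := hα
  have ha : ∀ l, (q : ℤ) * α l = ((∑ i, x (.inl i) * n i l + x (.inr (.inl l)) : ℕ) : ℤ) := by
    intro l
    have := congrFun hxα l
    rw [coneA_apply] at this
    rw [this]; simp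
  have hq0 : (0 : ℤ) < q := by exact_mod_cast hq
  have hα0 : ∀ l, 0 ≤ α l := fun l => by
    have := ha l
    by_contra h
    push Not at h
    have h2 : (q : ℤ) * α l < 0 := mul_neg_of_pos_of_neg hq0 h
    omega
  by_cases hz : α = 0
  · left
    rw [hz]
    exact ⟨le_rfl, fun l => Int.natCast_nonneg _⟩
  obtain ⟨l₀, hl₀⟩ := Function.ne_iff.1 hz
  have : Nonempty J := ⟨l₀⟩
  set φ : J → ℕ := fun l => ∑ i, x (.inl i) * n i l with hφ
  set a : J → ℕ := fun l => φ l + x (.inr (.inl l)) with hadef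
  set c : J → ℕ := fun l => a l + x (.inr (.inr l)) with hc
  have hslack : ∀ (y : Fin k ⊕ J ⊕ J → ℕ) (l : J), ∑ i, y (.inl i) * b i l + ∑ i, y (.inl i) ≤
      r * ∑ i, y (.inl i) * m i := by
    intro y l
    rw [mul_sum, ← sum_add_distrib]
    refine sum_le_sum fun i _ => ?_
    have := Nat.mul_le_mul_left (y (.inl i)) (Nat.succ_le_of_lt (hb i l))
    calc _ = y (.inl i) * (b i l).succ := by rw [Nat.mul_succ]
      _ ≤ _ := this
      _ = _ := by ring
  have ha0 : 0 < a l₀ := by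
    have h1 := ha l₀
    have h2 : 0 < (q : ℤ) * α l₀ := mul_pos hq0 (lt_of_le_of_ne (hα0 l₀) (Ne.symm hl₀))
    have h3 : ((a l₀ : ℕ) : ℤ) = q * α l₀ := h1.symm
    omega
  have ht : 0 < ∑ i, x (.inl i) := by
    by_contra h
    have h0 : ∀ i, x (.inl i) = 0 := fun i =>
      (sum_eq_zero_iff.1 (Nat.eq_zero_of_not_pos h)) i (mem_univ i)
    have h1 := hx l₀
    simp only [h0, zero_mul, sum_const_zero, mul_zero] at h1
    have h2 : φ l₀ = 0 := by simp [hφ, h0]
    have : a l₀ = 0 := by simp only [hadef, h2]; omega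
    omega
  have hcpos : ∀ l, 0 < c l := fun l => by
    have h1 := hx l
    have h2 := hslack x l
    simp only [hc, hadef]; omega
  obtain ⟨j, hj⟩ := Finite.exists_max fun l => (a l : ℚ) / c l
  have hj' : ∀ l, a l * c j ≤ a j * c l := fun l => by
    have h1 := hj l
    rw [div_le_div_iff₀ (by exact_mod_cast hcpos l) (by exact_mod_cast hcpos j)] at h1
    exact_mod_cast h1
  have haj : a j ≤ c j := Nat.le_add_right _ _
  -- the new representation
  let y : Fin k ⊕ J ⊕ J → ℕ := Sum.elim (fun i => a j * x (.inl i))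
    (Sum.elim (fun l => c j * a l - a j * φ l) fun l => a j * c l - a l * c j)
  have hφa : ∀ l, a j * φ l ≤ c j * a l := fun l => Nat.mul_le_mul haj (Nat.le_add_right _ _)
  have hsum : ∀ v : Fin k → ℕ, ∑ i, y (.inl i) * v i = a j * ∑ i, x (.inl i) * v i := fun v => by
    rw [mul_sum]; exact sum_congr rfl fun i _ => mul_assoc _ _ _
  have hyP : ∀ l, ∑ i, y (.inl i) * b i l + y (.inr (.inl l)) + y (.inr (.inr l)) =
      r * ∑ i, y (.inl i) * m i := by
    intro l
    rw [hsum, hsum, mul_left_comm, ← hx l]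
    show _ + (c j * a l - a j * φ l) + (a j * c l - a l * c j) = _
    have e1 : a j * c l = a j * φ l + a j * x (.inr (.inl l)) + a j * x (.inr (.inr l)) := by
      simp only [hc, hadef]; ring
    have h1 := hφa l
    have h2 := hj' l
    rw [mul_comm (a l) (c j)] at h2 ⊢
    have e2 : a j * (∑ i, x (.inl i) * b i l + x (.inr (.inl l)) + x (.inr (.inr l))) =
        a j * ∑ i, x (.inl i) * b i l + a j * x (.inr (.inl l)) + a j * x (.inr (.inr l)) := by
      ring
    rw [e2]
    omega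
  have hyj : y (.inr (.inr j)) = 0 := by
    show a j * c j - a j * c j = 0
    simp
  have hyA : ∀ l, ((∑ i, y (.inl i) * n i l + y (.inr (.inl l)) : ℕ) : ℤ) =
      ((q * c j : ℕ) : ℤ) * α l := by
    intro l
    rw [hsum]
    have e1 : a j * ∑ i, x (.inl i) * n i l + y (.inr (.inl l)) = c j * a l := by
      show a j * φ l + (c j * a l - a j * φ l) = _
      have := hφa l
      omega
    rw [e1]
    have h3 : ((a l : ℕ) : ℤ) = q * α l := (ha l).symm
    push_cast
    rw [h3]; ring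
  have hq' : 1 ≤ q * c j := Nat.mul_pos hq (hcpos j)
  by_cases hbig : q * c j ≤ y (.inr (.inl j))
  · right
    refine ⟨j, ⟨q * c j, hq', y, ⟨hyP, ?_⟩, ?_⟩, ?_, q * c j, hq', ?_⟩
    · rintro _ rfl; exact hyj
    · ext l; rw [coneA_apply, hyA]; simp
    · have h1 := hyA j
      have h2 : ((q * c j : ℕ) : ℤ) * 1 ≤ ((q * c j : ℕ) : ℤ) * α j := by
        rw [← h1]; omega
      exact le_of_mul_le_mul_left h2 (by exact_mod_cast hq')
    · let z : Fin k ⊕ J ⊕ J → ℕ := Sum.elim (fun i => y (.inl i))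
        (Sum.elim (fun l => y (.inr (.inl l)) - if l = j then q * c j else 0)
          fun l => y (.inr (.inr l)) + if l = j then q * c j else 0)
      refine ⟨z, ⟨fun l => ?_, by simp⟩, ?_⟩
      · have h1 := hyP l
        show ∑ i, y (.inl i) * b i l + (y (.inr (.inl l)) - if l = j then q * c j else 0) +
          (y (.inr (.inr l)) + if l = j then q * c j else 0) = r * ∑ i, y (.inl i) * m i
        split_ifs with hl
        · subst hl; omega
        · omega
      · ext l
        rw [coneA_apply]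
        have h1 := hyA l
        show ((∑ i, y (.inl i) * n i l + (y (.inr (.inl l)) - if l = j then q * c j else 0) : ℕ)
          : ℤ) = _
        rw [Pi.smul_apply, Pi.sub_apply, nsmul_eq_mul, mul_sub, ← h1]
        split_ifs with hl
        · subst hl
          rw [Pi.single_eq_same, mul_one]
          omega
        · rw [Pi.single_eq_of_ne hl]; simp
  · left
    refine ⟨hα0, fun l => ?_⟩
    have h1 := hyP j
    have h2 := hslack y j
    have h3 : ∑ i, y (.inl i) ≤ q * c j := by omega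
    have h4 : ∀ i, y (.inl i) ≤ q * c j := fun i =>
      (single_le_sum (f := fun i => y (.inl i)) (fun _ _ => Nat.zero_le _) (mem_univ i)).trans h3
    have h5 : ∑ i, y (.inl i) * n i l + y (.inr (.inl l)) ≤
        q * c j * ∑ i, (n i l + r * m i) := by
      have h6 := hyP l
      have h7 : ∑ i, y (.inl i) * n i l + r * ∑ i, y (.inl i) * m i ≤
          q * c j * ∑ i, (n i l + r * m i) := by
        rw [mul_sum, mul_sum, ← sum_add_distrib]
        refine sum_le_sum fun i _ => ?_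
        calc _ = y (.inl i) * (n i l + r * m i) := by ring
          _ ≤ _ := Nat.mul_le_mul_right _ (h4 i)
      omega
    have h8 : ((q * c j : ℕ) : ℤ) * α l ≤
        ((q * c j : ℕ) : ℤ) * ((∑ i, (n i l + r * m i) : ℕ) : ℤ) := by
      rw [← hyA]; exact_mod_cast h5
    exact le_of_mul_le_mul_left h8 (Int.natCast_pos.2 hq')

end Cone

/-- The final step. `κ` is the degree of `r (K + A)`, `e j` that of the divisor `S j` with the
section `σ j`, `N j` consists of the sections vanishing on `S j`. The degrees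
`d i = m i κ + ∑ b i l e l` are, by the units `u i`, equivalent to `∑ n i l e l`. -/
theorem a63 [IsNoetherianRing O] [AddCommGroup M] {J : Type} [Fintype J]
    {H : M → Submodule O K} (hH : Fam H) (κ : M) (e : J → M) (σ : J → K)
    (hσ : ∀ j, σ j ∈ H (e j)) (r : ℕ) (N : J → M → Submodule O K) (hNi : ∀ j, Idl H (N j))
    (hNp : ∀ j, Prm H (N j)) (hNσ : ∀ j a, ∀ f ∈ N j a, ∃ g ∈ H (a - e j), σ j * g = f)
    (hfin : ∀ a, (H a).FG)
    (hres : ∀ j, FGm H (N j) {a | ∃ (m : ℕ) (b : J → ℕ), (∀ l, b l ≤ r * m) ∧ b j = r * m ∧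
      m • κ + ∑ l, b l • e l = a})
    {k : ℕ} (m : Fin k → ℕ) (b n : Fin k → J → ℕ) (hb : ∀ i l, b i l < r * m i)
    (u u' : Fin k → K) (hu : ∀ i, u i ∈ H (m i • κ + ∑ l, b i l • e l - ∑ l, n i l • e l))
    (hu' : ∀ i, u' i ∈ H (-(m i • κ + ∑ l, b i l • e l - ∑ l, n i l • e l)))
    (huu : ∀ i, u i * u' i = 1) :
    FG H {a | ∃ t : Fin k → ℕ, ∑ i, t i • (m i • κ + ∑ l, b i l • e l) = a} := by
  classical
  let E : (J → ℤ) →+ M :=
    { toFun := fun α => ∑ l, α l • e l
      map_zero' := by simp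
      map_add' := fun α β => by simp [add_smul, sum_add_distrib] }
  have hE : ∀ α, E α = ∑ l, α l • e l := fun _ => rfl
  let τ : (Fin k ⊕ J ⊕ J → ℕ) →+ (Fin k → ℕ) :=
    { toFun := fun x i => x (.inl i), map_zero' := rfl, map_add' := fun _ _ => rfl }
  let D : (Fin k ⊕ J ⊕ J → ℕ) →+ M :=
    { toFun := fun x => (∑ i, x (.inl i) * m i) • κ +
        ∑ l, (∑ i, x (.inl i) * b i l + x (.inr (.inl l))) • e l
      map_zero' := by simp
      map_add' := fun x y => by
        simp only [Pi.add_apply, add_mul, sum_add_distrib, add_smul]; abel }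
  have hD : ∀ x, D x = (∑ i, x (.inl i) * m i) • κ +
      ∑ l, (∑ i, x (.inl i) * b i l + x (.inr (.inl l))) • e l := fun _ => rfl
  have hswap : ∀ (t : Fin k → ℕ) (v : Fin k → J → ℕ),
      ∑ l, (∑ i, t i * v i l) • e l = ∑ i, t i • ∑ l, v i l • e l := by
    intro t v
    simp only [sum_smul, smul_sum, mul_smul]
    exact sum_comm
  have hDE : ∀ x, D x - E (coneA n x) =
      ∑ i, τ x i • (m i • κ + ∑ l, b i l • e l - ∑ l, n i l • e l) := by
    intro x
    rw [hD, hE]
    simp only [coneA_apply, natCast_zsmul, add_smul, sum_add_distrib, smul_sub, smul_add,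
      sum_sub_distrib, sum_smul, mul_smul]
    show _ = ∑ i, x (.inl i) • m i • κ + ∑ i, x (.inl i) • ∑ l, b i l • e l -
      ∑ i, x (.inl i) • ∑ l, n i l • e l
    simp only [smul_sum]
    rw [sum_comm (f := fun i l => x (.inl i) • b i l • e l),
      sum_comm (f := fun i l => x (.inl i) • n i l • e l)]
    abel
  have hH' : Fam fun α => H (E α) := hH.comap E
  have hCj : ∀ j, FGm (fun α => H (E α)) (fun α => N j (E α))
      (sat ((coneP r m b {j}).map (coneA n)) : Set (J → ℤ)) := by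
    intro j
    refine FGm.of_sat hH' (Idl.comap (hNi j) E) (Prm.comap (hNp j) E) ((coneP_fg r m b {j}).map _) ?_
    rw [AddSubmonoid.coe_map]
    refine FGm.map (coneA n) ?_
    have h1 := (hres j).comap hH D (coneP r m b {j}) (coneP_fg r m b {j}) (by
      rintro x ⟨h1, h2⟩
      refine ⟨_, _, fun l => ?_, ?_, (hD x).symm⟩
      · have := h1 l; omega
      · have := h1 j; have := h2 j rfl; omega)
    refine FGm.unit_fin hH (hNi j) D (E.comp (coneA n)) τ
      (fun i => -(m i • κ + ∑ l, b i l • e l - ∑ l, n i l • e l)) (fun x => ?_) u' u hu'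
      (fun i => by rw [neg_neg]; exact hu i) (fun i => by rw [mul_comm, huu]) h1
    rw [← neg_sub, AddMonoidHom.comp_apply, hDE, ← sum_neg_distrib]
    simp only [smul_neg]
  have hEs : ∀ j, E (Pi.single j 1) = e j := fun j => by
    rw [hE, sum_eq_single j] <;> simp +contextual
  have hC : FG (fun α => H (E α)) (sat ((coneP r m b ∅).map (coneA n)) : Set (J → ℤ)) := by
    refine fg_of_res (fun j => (sat ((coneP r m b {j}).map (coneA n)) : Set (J → ℤ)))
      (fun j α => N j (E α)) (fun j => Pi.single j 1) σ (fun j => by rw [hEs]; exact hσ j)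
      (fun α => (∑ l, α l).toNat)
      (Set.Icc (0 : J → ℤ) (fun l => ((∑ i, (n i l + r * m i) : ℕ) : ℤ)))
      (fgm_of_finite (Set.finite_Icc _ _) fun a _ => hfin _) hCj fun α hα => ?_
    rcases cone_step n hb hα with h | ⟨j, h1, h2, h3⟩
    · exact Or.inl h
    · refine Or.inr ⟨j, h1, α - Pi.single j 1, h3, ?_, add_sub_cancel _ _, fun f hf => ?_⟩
      · have h4 : ∀ l, 0 ≤ (α - Pi.single j 1 : J → ℤ) l := by
          obtain ⟨q, hq, x, -, hx⟩ := h3
          intro l
          have h5 := congrFun hx l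
          rw [coneA_apply, Pi.smul_apply, nsmul_eq_mul] at h5
          by_contra h
          push Not at h
          have h6 : (q : ℤ) * (α - Pi.single j 1 : J → ℤ) l < 0 :=
            mul_neg_of_pos_of_neg (by exact_mod_cast hq) h
          omega
        have h5 : 0 ≤ ∑ l, (α - Pi.single j 1 : J → ℤ) l := sum_nonneg fun l _ => h4 l
        have h6 : ∑ l, (α - Pi.single j 1 : J → ℤ) l = ∑ l, α l - 1 := by
          simp [sum_sub_distrib]
        show (∑ l, (α - Pi.single j 1 : J → ℤ) l).toNat < (∑ l, α l).toNat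
        omega
      · rw [map_sub, hEs]; exact hNσ j _ f hf
  let ι₀ : (Fin k → ℕ) →+ (Fin k ⊕ J ⊕ J → ℕ) :=
    { toFun := fun t => Sum.elim t 0
      map_zero' := by ext x; rcases x with x | x <;> rfl
      map_add' := fun s t => by ext x; rcases x with x | x <;> rfl }
  have htop : (⊤ : AddSubmonoid (Fin k → ℕ)).FG := AddSubmonoid.fg_of_subtractive (by simp)
  have h1 := FGm.comap hH' hC ((coneA n).comp ι₀) ⊤ htop (by
    intro t _
    refine le_sat _ ⟨Sum.elim t (Sum.elim 0 fun l => r * ∑ i, t i * m i - ∑ i, t i * b i l),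
      ⟨fun l => ?_, by simp⟩, rfl⟩
    have : ∑ i, t i * b i l ≤ r * ∑ i, t i * m i := by
      rw [mul_sum]
      refine sum_le_sum fun i _ => ?_
      rw [mul_left_comm]; exact Nat.mul_le_mul_left _ (hb i l).le
    show ∑ i, t i * b i l + 0 + (r * ∑ i, t i * m i - ∑ i, t i * b i l) = r * ∑ i, t i * m i
    omega)
  have hb0 : Idl H fun _ => ⊥ := @idl_bot _ _ _ _ _ _ _ H
  have h2 := FGm.unit_fin (N := fun _ => ⊥) hH (@hb0) (E.comp ((coneA n).comp ι₀)) (D.comp ι₀)
    (τ.comp ι₀) _ (fun x => hDE (ι₀ x)) u u' hu hu' huu h1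
  refine (FGm.map (H := H) (N := fun _ => ⊥) (D.comp ι₀) h2).mono ?_
  rintro _ ⟨t, rfl⟩
  refine ⟨t, trivial, ?_⟩
  rw [AddMonoidHom.comp_apply, hD]
  show (∑ i, t i * m i) • κ + ∑ l, (∑ i, t i * b i l + 0) • e l = _
  simp only [add_zero]
  rw [hswap]
  simp only [smul_add, sum_add_distrib, sum_smul, mul_smul]

end P277Z.Gr
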